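import Vale.Agent.P165.Defs

/-!
Weighted Cheeger inequality for the adjacency operator.
-/

namespace Vale.Agent.P165

open SimpleGraph Finset
open scoped Classical

set_option linter.unusedSectionVars false

variable {V : Type*} {G : SimpleGraph V}

/-- Adjacency weight. -/
noncomputable def adjW (G : SimpleGraph V) (x y : V) : ℝ := if G.Adj x y then 1 else 0

lemma adjW_symm (x y : V) : adjW G x y = adjW G y x := by
  simp only [adjW, G.adj_comm x y]

lemma adjW_nonneg (x y : V) : 0 ≤ adjW G x y := by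
  unfold adjW; split_ifs <;> norm_num

/-- The quadratic form. -/
noncomputable def qForm (G : SimpleGraph V) (T : Finset V) (f g : V → ℝ) : ℝ :=
  ∑ x ∈ T, ∑ y ∈ T, adjW G x y * (f x * g y)

lemma qForm_bilin_le {β : ℝ} (T : Finset V) (hβ : 0 ≤ β)
    (h : ∀ f : V → ℝ, (∀ x, 0 ≤ f x) → qForm G T f f ≤ β * ∑ x ∈ T, f x ^ 2) (f g : V → ℝ) :
    qForm G T f g ≤ β / 2 * (∑ x ∈ T, f x ^ 2 + ∑ x ∈ T, g x ^ 2) := by
  have hu := h (fun x => |f x| + |g x|) fun x => add_nonneg (abs_nonneg _) (abs_nonneg _)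
  have hv := h (fun x => |(|f x| - |g x|)|) fun x => abs_nonneg _
  have hlow : -(β * ∑ x ∈ T, (|f x| - |g x|) ^ 2)
      ≤ qForm G T (fun x => |f x| - |g x|) (fun x => |f x| - |g x|) := by
    have h1 : -(qForm G T (fun x => |(|f x| - |g x|)|) (fun x => |(|f x| - |g x|)|))
        ≤ qForm G T (fun x => |f x| - |g x|) (fun x => |f x| - |g x|) := by
      simp only [qForm, ← sum_neg_distrib]
      refine sum_le_sum fun x _ => sum_le_sum fun y _ => ?_
      rw [← mul_neg]
      refine mul_le_mul_of_nonneg_left ?_ (adjW_nonneg x y)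
      rw [← abs_mul]
      exact neg_abs_le _
    simp only [sq_abs] at hv
    linarith
  have hpol : qForm G T (fun x => |f x| + |g x|) (fun x => |f x| + |g x|)
      - qForm G T (fun x => |f x| - |g x|) (fun x => |f x| - |g x|)
      = 4 * qForm G T (fun x => |f x|) (fun x => |g x|) := by
    have hs : qForm G T (fun x => |g x|) (fun x => |f x|)
        = qForm G T (fun x => |f x|) (fun x => |g x|) := by
      simp only [qForm]
      rw [sum_comm]
      exact sum_congr rfl fun x _ => sum_congr rfl fun y _ => by rw [adjW_symm]; ring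
    have : qForm G T (fun x => |f x| + |g x|) (fun x => |f x| + |g x|)
        - qForm G T (fun x => |f x| - |g x|) (fun x => |f x| - |g x|)
        = 2 * qForm G T (fun x => |f x|) (fun x => |g x|)
          + 2 * qForm G T (fun x => |g x|) (fun x => |f x|) := by
      simp only [qForm, mul_sum, ← sum_sub_distrib, ← sum_add_distrib]
      exact sum_congr rfl fun x _ => sum_congr rfl fun y _ => by ring
    rw [this, hs]; ring
  have habs : qForm G T f g ≤ qForm G T (fun x => |f x|) (fun x => |g x|) := by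
    refine sum_le_sum fun x _ => sum_le_sum fun y _ => ?_
    refine mul_le_mul_of_nonneg_left ?_ (adjW_nonneg x y)
    rw [← abs_mul]
    exact le_abs_self _
  have hsq : ∑ x ∈ T, (|f x| + |g x|) ^ 2 + ∑ x ∈ T, (|f x| - |g x|) ^ 2
      = 2 * (∑ x ∈ T, f x ^ 2 + ∑ x ∈ T, g x ^ 2) := by
    simp only [← sum_add_distrib, mul_sum]
    refine sum_congr rfl fun x _ => ?_
    rw [← sq_abs (f x), ← sq_abs (g x)]
    ring
  have hβsq := congrArg (fun t => β * t) hsq
  nlinarith

lemma adjNorm_of_qForm {β : ℝ} (hβ : 0 < β)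
    (h : ∀ (T : Finset V) (f : V → ℝ), (∀ x, 0 ≤ f x) → qForm G T f f ≤ β * ∑ x ∈ T, f x ^ 2) :
    AdjNorm G β := by
  intro T f
  set u : V → ℝ := fun x => ∑ y ∈ T, adjW G x y * f y with hu
  have hlhs : ∑ x ∈ T, (∑ y ∈ T, if G.Adj x y then f y else 0) ^ 2 = ∑ x ∈ T, u x ^ 2 := by
    refine sum_congr rfl fun x _ => ?_
    show _ = (∑ y ∈ T, adjW G x y * f y) ^ 2
    congr 1
    refine sum_congr rfl fun y _ => ?_
    unfold adjW
    split_ifs <;> simp
  have h1 := qForm_bilin_le T hβ.le (h T) (fun x => u x / β) f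
  have h2 : qForm G T (fun x => u x / β) f = (∑ x ∈ T, u x ^ 2) / β := by
    rw [qForm, sum_div]
    refine sum_congr rfl fun x _ => ?_
    rw [sq, mul_div_assoc]
    conv_rhs => rw [hu]
    simp only [sum_mul]
    exact sum_congr rfl fun y _ => by ring
  have h3 : ∑ x ∈ T, (u x / β) ^ 2 = (∑ x ∈ T, u x ^ 2) / β ^ 2 := by
    rw [sum_div]; exact sum_congr rfl fun x _ => by ring
  rw [h2, h3] at h1
  rw [hlhs]
  field_simp at h1
  nlinarith

lemma layer_cake {W : V → V → ℝ} (hW : ∀ x y, 0 ≤ W x y) (hWs : ∀ x y, W x y = W y x)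
    {π : V → ℝ} {U : Finset V} {c : ℝ} (S : Finset V) (hS : S ⊆ U)
    (hiso : ∀ R ⊆ S, c * ∑ x ∈ R, π x ≤ ∑ x ∈ R, ∑ y ∈ U \ R, W x y)
    (g : V → ℝ) (hg : ∀ x, 0 ≤ g x) (hsupp : ∀ x ∈ U, x ∉ S → g x = 0) :
    2 * c * ∑ x ∈ U, π x * g x ≤ ∑ x ∈ U, ∑ y ∈ U, W x y * |g x - g y| := by
  induction hn : #S using Nat.strong_induction_on generalizing S g with
  | _ n ih =>
    by_cases hne : S.Nonempty
    swap
    · rw [not_nonempty_iff_eq_empty] at hne
      have h0 : ∀ x ∈ U, g x = 0 := fun x hx => hsupp x hx (by simp [hne])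
      rw [sum_eq_zero fun x hx => by rw [h0 x hx, mul_zero], mul_zero]
      exact sum_nonneg fun x _ => sum_nonneg fun y _ => mul_nonneg (hW x y) (abs_nonneg _)
    obtain ⟨m, hm, hmin⟩ := S.exists_min_image g hne
    set t := g m with ht
    set g' : V → ℝ := fun x => if x ∈ S then g x - t else 0 with hg'
    have hg'0 : ∀ x, 0 ≤ g' x := fun x => by
      simp only [hg']
      split_ifs with hx
      · linarith [hmin x hx]
      · exact le_rfl
    have hlt : #(S.erase m) < n := hn ▸ card_erase_lt_of_mem hm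
    have hIH := ih _ hlt (S.erase m) ((erase_subset _ _).trans hS)
      (fun R hR => hiso R (hR.trans (erase_subset _ _))) g' hg'0 (by
        intro x _ hx
        simp only [hg']
        split_ifs with hxS
        · have hxm : x = m := by
            by_contra h
            exact hx (mem_erase.2 ⟨h, hxS⟩)
          rw [hxm, ← ht, sub_self]
        · rfl) rfl
    have hdec : ∀ x ∈ U, ∀ y ∈ U,
        |g x - g y| = |g' x - g' y| + t * (if x ∈ S ↔ y ∈ S then 0 else 1) := by
      intro x hx y hy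
      by_cases hxS : x ∈ S <;> by_cases hyS : y ∈ S
      · simp [hg', hxS, hyS]
      · have := hmin x hxS
        simp only [hg', hxS, hyS, if_true, if_false, hsupp y hy hyS, sub_zero, iff_false,
          not_true]
        rw [abs_of_nonneg (hg x), abs_of_nonneg (by linarith)]
        ring
      · have := hmin y hyS
        simp only [hg', hxS, hyS, if_true, if_false, hsupp x hx hxS, zero_sub, iff_true, abs_neg]
        rw [abs_of_nonneg (hg y), abs_of_nonneg (by linarith)]
        ring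
      · simp [hg', hxS, hyS, hsupp x hx hxS, hsupp y hy hyS]
    have hbd : ∑ x ∈ U, ∑ y ∈ U, W x y * (if x ∈ S ↔ y ∈ S then 0 else 1)
        = 2 * ∑ x ∈ S, ∑ y ∈ U \ S, W x y := by
      rw [← sum_sdiff hS]
      have hA : ∀ x ∈ U \ S, ∑ y ∈ U, W x y * (if x ∈ S ↔ y ∈ S then (0:ℝ) else 1)
          = ∑ y ∈ S, W x y := by
        intro x hx
        have hx' := (Finset.mem_sdiff.1 hx).2
        rw [← sum_sdiff hS, sum_eq_zero (s := U \ S), zero_add]
        · exact sum_congr rfl fun y hy => by simp [hx', hy]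
        · intro y hy; simp [hx', (Finset.mem_sdiff.1 hy).2]
      have hB : ∀ x ∈ S, ∑ y ∈ U, W x y * (if x ∈ S ↔ y ∈ S then (0:ℝ) else 1)
          = ∑ y ∈ U \ S, W x y := by
        intro x hx
        rw [← sum_sdiff hS, sum_eq_zero (s := S), add_zero]
        · exact sum_congr rfl fun y hy => by simp [hx, (Finset.mem_sdiff.1 hy).2]
        · intro y hy; simp [hx, hy]
      rw [sum_congr rfl hA, sum_congr rfl hB, sum_comm (s := U \ S) (t := S), two_mul]
      congr 1
      exact sum_congr rfl fun x _ => sum_congr rfl fun y _ => hWs y x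
    have hsum : ∑ x ∈ U, π x * g x = ∑ x ∈ U, π x * g' x + t * ∑ x ∈ S, π x := by
      rw [mul_sum, ← inter_eq_right.2 hS, ← sum_ite_mem, ← sum_add_distrib]
      refine sum_congr rfl fun x hx => ?_
      by_cases hxS : x ∈ S
      · simp only [hg', hxS, if_true]; ring
      · simp [hg', hxS, hsupp x hx hxS]
    have hsplit : ∑ x ∈ U, ∑ y ∈ U, W x y * |g x - g y|
        = ∑ x ∈ U, ∑ y ∈ U, W x y * |g' x - g' y|
          + t * ∑ x ∈ U, ∑ y ∈ U, W x y * (if x ∈ S ↔ y ∈ S then 0 else 1) := by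
      simp only [mul_sum, ← sum_add_distrib]
      refine sum_congr rfl fun x hx => sum_congr rfl fun y hy => ?_
      rw [hdec x hx y hy]; ring
    rw [hsplit, hbd, hsum]
    have := mul_le_mul_of_nonneg_left (hiso S subset_rfl) (hg m)
    nlinarith

variable [G.LocallyFinite]

/-- Cheeger's inequality, weighted by a positive eigenfunction. -/
lemma adjNorm_of_iso {h : V → ℝ} {Lam c : ℝ} (hh : ∀ x, 0 < h x) (hLam : 0 < Lam)
    (hc0 : 0 < c) (hc1 : c < 1)
    (heig : ∀ x, ∑ y ∈ G.neighborFinset x, h y = Lam * h x)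
    (hiso : ∀ R : Finset V, c * ∑ x ∈ R, Lam * h x ^ 2
        ≤ ∑ x ∈ R, ∑ y ∈ G.neighborFinset x \ R, h x * h y) :
    AdjNorm G (Real.sqrt (1 - c ^ 2) * Lam) := by
  have hc2 : 0 < 1 - c ^ 2 := by nlinarith
  refine adjNorm_of_qForm (mul_pos (Real.sqrt_pos.2 hc2) hLam) fun T f hf => ?_
  set U := T ∪ T.biUnion (fun x => G.neighborFinset x) with hU
  set W : V → V → ℝ := fun x y => adjW G x y * (h x * h y) with hWdef
  have hW0 : ∀ x y, 0 ≤ W x y := fun x y =>
    mul_nonneg (adjW_nonneg x y) (mul_pos (hh x) (hh y)).le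
  have hWs : ∀ x y, W x y = W y x := fun x y => by simp only [hWdef, adjW_symm x y]; ring
  set F : V → ℝ := fun x => if x ∈ T then f x / h x else 0 with hF
  have hF0 : ∀ x, 0 ≤ F x := fun x => by
    simp only [hF]; split_ifs
    · exact div_nonneg (hf x) (hh x).le
    · exact le_rfl
  have hNU : ∀ x ∈ T, G.neighborFinset x ⊆ U := fun x hx y hy =>
    Finset.mem_union_right _ (mem_biUnion.2 ⟨x, hx, hy⟩)
  have hrow : ∀ x ∈ T, ∑ y ∈ U, W x y = Lam * h x ^ 2 := by
    intro x hx
    rw [← sum_subset (hNU x hx) (fun y _ hy => by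
      simp only [hWdef, adjW]
      rw [if_neg (fun hadj => hy ((mem_neighborFinset G x y).2 hadj)), zero_mul])]
    calc ∑ y ∈ G.neighborFinset x, W x y = ∑ y ∈ G.neighborFinset x, h x * h y :=
          sum_congr rfl fun y hy => by
            simp only [hWdef, adjW]
            rw [if_pos ((mem_neighborFinset G x y).1 hy), one_mul]
      _ = _ := by rw [← mul_sum, heig]; ring
  have hcake := layer_cake (π := fun x => Lam * h x ^ 2) hW0 hWs (U := U) (c := c) T
    subset_union_left ?_ (fun x => F x ^ 2) (fun x => sq_nonneg _) ?_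
  rotate_left
  · intro R hR
    refine (hiso R).trans (le_of_eq (sum_congr rfl fun x hx => ?_))
    have hxT := hR hx
    rw [← sum_subset (sdiff_subset_sdiff (hNU x hxT) (subset_refl R)) (fun y hy hyn => by
      simp only [hWdef, adjW]
      rw [if_neg, zero_mul]
      intro hadj
      exact hyn (Finset.mem_sdiff.2 ⟨(mem_neighborFinset G x y).2 hadj,
        (Finset.mem_sdiff.1 hy).2⟩))]
    refine sum_congr rfl fun y hy => ?_
    simp only [hWdef, adjW]
    rw [if_pos ((mem_neighborFinset G x y).1 (Finset.mem_sdiff.1 hy).1), one_mul]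
  · intro x _ hx
    simp [hF, hx]
  set N := ∑ x ∈ T, f x ^ 2 with hN
  have hπ : ∑ x ∈ U, (Lam * h x ^ 2) * F x ^ 2 = Lam * N := by
    rw [hN, mul_sum, ← sum_subset (subset_union_left : T ⊆ U) (fun x _ hx => by simp [hF, hx])]
    refine sum_congr rfl fun x hx => ?_
    simp only [hF, hx, if_true]
    have := hh x
    field_simp
  have hx2 : ∑ x ∈ U, ∑ y ∈ U, W x y * F x ^ 2 = Lam * N := by
    rw [← hπ]
    refine sum_congr rfl fun x _ => ?_
    rw [← sum_mul]
    by_cases hxT : x ∈ T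
    · rw [hrow x hxT]
    · simp [hF, hxT]
  have hy2 : ∑ x ∈ U, ∑ y ∈ U, W x y * F y ^ 2 = Lam * N := by
    rw [sum_comm, ← hx2]
    exact sum_congr rfl fun x _ => sum_congr rfl fun y _ => by rw [hWs]
  set q := qForm G T f f with hq
  have hq' : ∑ x ∈ U, ∑ y ∈ U, W x y * (F x * F y) = q := by
    rw [hq, qForm, ← sum_subset (subset_union_left : T ⊆ U)
      (fun x _ hx => sum_eq_zero fun y _ => by simp [hF, hx])]
    refine sum_congr rfl fun x hx => ?_
    rw [← sum_subset (subset_union_left : T ⊆ U) (fun y _ hy => by simp [hF, hy])]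
    refine sum_congr rfl fun y hy => ?_
    simp only [hWdef, hF, hx, hy, if_true]
    have := hh x; have := hh y
    field_simp
  have hcs : (∑ x ∈ U, ∑ y ∈ U, W x y * |F x ^ 2 - F y ^ 2|) ^ 2
      ≤ (2 * (Lam * N) - 2 * q) * (2 * (Lam * N) + 2 * q) := by
    have h1 : ∑ z ∈ U ×ˢ U, W z.1 z.2 * (F z.1 - F z.2) ^ 2 = 2 * (Lam * N) - 2 * q := by
      rw [sum_product, ← hq', two_mul]
      nth_rw 1 [← hx2]; nth_rw 1 [← hy2]
      simp only [mul_sum, ← sum_add_distrib, ← sum_sub_distrib]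
      exact sum_congr rfl fun x _ => sum_congr rfl fun y _ => by ring
    have h2 : ∑ z ∈ U ×ˢ U, W z.1 z.2 * (F z.1 + F z.2) ^ 2 = 2 * (Lam * N) + 2 * q := by
      rw [sum_product, ← hq', two_mul]
      nth_rw 1 [← hx2]; nth_rw 1 [← hy2]
      simp only [mul_sum, ← sum_add_distrib]
      exact sum_congr rfl fun x _ => sum_congr rfl fun y _ => by ring
    rw [← h1, ← h2, ← sum_product (f := fun z => W z.1 z.2 * |F z.1 ^ 2 - F z.2 ^ 2|)]
    refine sum_sq_le_sum_mul_sum_of_sq_le_mul _ (fun z _ => ?_) (fun z _ => ?_) fun z _ => ?_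
    · exact mul_nonneg (hW0 _ _) (sq_nonneg _)
    · exact mul_nonneg (hW0 _ _) (sq_nonneg _)
    · rw [mul_pow, sq_abs]
      exact le_of_eq (by ring)
  rw [hπ] at hcake
  have hN0 : 0 ≤ N := sum_nonneg fun x _ => sq_nonneg _
  have h4 : (2 * c * (Lam * N)) ^ 2 ≤ (2 * (Lam * N) - 2 * q) * (2 * (Lam * N) + 2 * q) :=
    (pow_le_pow_left₀ (by positivity) hcake 2).trans hcs
  have hq0 : 0 ≤ q := sum_nonneg fun x _ => sum_nonneg fun y _ =>
    mul_nonneg (adjW_nonneg x y) (mul_nonneg (hf x) (hf y))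
  have h5 : q ^ 2 ≤ (Real.sqrt (1 - c ^ 2) * Lam * N) ^ 2 := by
    rw [mul_pow, mul_pow, Real.sq_sqrt hc2.le]
    linarith
  exact (pow_le_pow_iff_left₀ hq0 (by positivity) two_ne_zero).1 h5

end Vale.Agent.P165
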