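import Mathlib

/-!
Bernoulli bond percolation on a graph, its two critical values, and the notions of
quasi-transitivity, nonamenability and adjacency norm used in the statement.
-/

namespace Vale.Agent.P165

open MeasureTheory ProbabilityTheory SimpleGraph
open scoped Classical

variable {V : Type*}

/-- The open subgraph of a configuration. -/
def openGraph (G : SimpleGraph V) (ω : Set (Sym2 V)) : SimpleGraph V :=
  fromEdgeSet (ω ∩ G.edgeSet)

/-- Bernoulli bond percolation: every edge is open with probability `p`, independently. -/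
noncomputable def percMeasure (G : SimpleGraph V) (p : unitInterval) : Measure (Set (Sym2 V)) :=
  setBernoulli G.edgeSet p

/-- At least one infinite cluster. -/
def percolates (G : SimpleGraph V) : Set (Set (Sym2 V)) :=
  {ω | ∃ C : (openGraph G ω).ConnectedComponent, C.supp.Infinite}

/-- Exactly one infinite cluster. -/
def uniqueCluster (G : SimpleGraph V) : Set (Set (Sym2 V)) :=
  {ω | ∃! C : (openGraph G ω).ConnectedComponent, C.supp.Infinite}

/-- The critical value `p_c`. -/
noncomputable def pc (G : SimpleGraph V) : ℝ :=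
  sInf {p : ℝ | ∃ hp : p ∈ Set.Icc (0 : ℝ) 1, 0 < percMeasure G ⟨p, hp⟩ (percolates G)}

/-- The uniqueness threshold `p_u`. -/
noncomputable def pu (G : SimpleGraph V) : ℝ :=
  sInf {p : ℝ | ∃ hp : p ∈ Set.Icc (0 : ℝ) 1, percMeasure G ⟨p, hp⟩ (uniqueCluster G) = 1}

/-- The automorphism group has finitely many orbits on vertices. -/
def QuasiTransitive (G : SimpleGraph V) : Prop :=
  ∃ R : Finset V, ∀ v : V, ∃ φ : G ≃g G, φ v ∈ R

/-- Positive vertex-isoperimetric constant. -/
def Nonamenable (G : SimpleGraph V) : Prop :=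
  ∃ κ : ℝ, 0 < κ ∧ ∀ A : Finset V, A.Nonempty →
    κ * A.card ≤ ({v : V | v ∉ A ∧ ∃ a ∈ A, G.Adj a v}.ncard : ℝ)

/-- The adjacency operator of `G` has norm at most `lam` on `ℓ²(V)`. -/
def AdjNorm (G : SimpleGraph V) (lam : ℝ) : Prop :=
  ∀ (T : Finset V) (f : V → ℝ),
    ∑ x ∈ T, (∑ y ∈ T, if G.Adj x y then f y else 0) ^ 2 ≤ lam ^ 2 * ∑ x ∈ T, f x ^ 2

end Vale.Agent.P165
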