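import Mathlib

/-!
Finite product-Bernoulli expectations over subsets of a finite set.
-/

namespace Vale.Agent.P165

open Finset

set_option linter.unusedSectionVars false

variable {α : Type*} [DecidableEq α]

/-- Expectation of `f` of a random subset of `E`, each element kept with probability `p`. -/
def expect (p : ℝ) (E : Finset α) (f : Finset α → ℝ) : ℝ :=
  ∑ ω ∈ E.powerset, p ^ #ω * (1 - p) ^ (#E - #ω) * f ω

lemma expect_empty (p : ℝ) (f : Finset α → ℝ) : expect p ∅ f = f ∅ := by
  simp [expect]

lemma expect_insert {p : ℝ} {E : Finset α} {a : α} (ha : a ∉ E) (f : Finset α → ℝ) :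
    expect p (insert a E) f
      = (1 - p) * expect p E f + p * expect p E (fun ω => f (insert a ω)) := by
  unfold expect
  rw [sum_powerset_insert ha, mul_sum, mul_sum]
  congr 1
  · refine sum_congr rfl fun ω hω => ?_
    rw [mem_powerset] at hω
    have h1 : #ω ≤ #E := card_le_card hω
    rw [card_insert_of_notMem ha, show #E + 1 - #ω = (#E - #ω) + 1 by omega, pow_succ]
    ring
  · refine sum_congr rfl fun ω hω => ?_
    rw [mem_powerset] at hω
    rw [card_insert_of_notMem ha, card_insert_of_notMem (fun h => ha (hω h)), pow_succ,
      show #E + 1 - (#ω + 1) = #E - #ω by omega]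
    ring

lemma expect_add (p : ℝ) (E : Finset α) (f g : Finset α → ℝ) :
    expect p E (fun ω => f ω + g ω) = expect p E f + expect p E g := by
  simp only [expect, mul_add, sum_add_distrib]

lemma expect_sub (p : ℝ) (E : Finset α) (f g : Finset α → ℝ) :
    expect p E (fun ω => f ω - g ω) = expect p E f - expect p E g := by
  simp only [expect, mul_sub, sum_sub_distrib]

lemma expect_mul_left (p : ℝ) (E : Finset α) (c : ℝ) (f : Finset α → ℝ) :
    expect p E (fun ω => c * f ω) = c * expect p E f := by
  simp only [expect, mul_sum]
  exact sum_congr rfl fun ω _ => by ring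

lemma expect_sum {ι : Type*} (p : ℝ) (E : Finset α) (s : Finset ι) (f : ι → Finset α → ℝ) :
    expect p E (fun ω => ∑ i ∈ s, f i ω) = ∑ i ∈ s, expect p E (f i) := by
  simp only [expect, mul_sum]
  exact sum_comm

lemma expect_congr {p : ℝ} {E : Finset α} {f g : Finset α → ℝ}
    (h : ∀ ω, ω ⊆ E → f ω = g ω) : expect p E f = expect p E g :=
  sum_congr rfl fun ω hω => by rw [h ω (mem_powerset.1 hω)]

lemma expect_mono {p : ℝ} (hp0 : 0 ≤ p) (hp1 : p ≤ 1) {E : Finset α} {f g : Finset α → ℝ}
    (h : ∀ ω, ω ⊆ E → f ω ≤ g ω) : expect p E f ≤ expect p E g := by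
  refine sum_le_sum fun ω hω => ?_
  exact mul_le_mul_of_nonneg_left (h ω (mem_powerset.1 hω))
    (mul_nonneg (pow_nonneg hp0 _) (pow_nonneg (by linarith) _))

lemma expect_const (p : ℝ) (E : Finset α) (c : ℝ) : expect p E (fun _ => c) = c := by
  induction E using Finset.induction_on with
  | empty => simp [expect_empty]
  | insert a E ha ih => rw [expect_insert ha]; simp only [ih]; ring

lemma expect_nonneg {p : ℝ} (hp0 : 0 ≤ p) (hp1 : p ≤ 1) {E : Finset α} {f : Finset α → ℝ}
    (h : ∀ ω, ω ⊆ E → 0 ≤ f ω) : 0 ≤ expect p E f := by
  calc (0:ℝ) = expect p E (fun _ => 0) := (expect_const p E 0).symm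
    _ ≤ _ := expect_mono hp0 hp1 h

lemma expect_union {p : ℝ} {E F : Finset α} (h : Disjoint E F) (f : Finset α → ℝ) :
    expect p (E ∪ F) f = expect p E (fun a => expect p F (fun b => f (a ∪ b))) := by
  induction E using Finset.induction_on generalizing f with
  | empty => simp [expect_empty]
  | insert a E ha ih =>
    rw [disjoint_insert_left] at h
    have haEF : a ∉ E ∪ F := by simp [ha, h.1]
    rw [insert_union, expect_insert haEF, expect_insert ha, ih h.2, ih h.2]
    simp only [insert_union]

/-- Flipping one coordinate. -/
lemma expect_flip {p : ℝ} {E : Finset α} {e : α} (he : e ∈ E) (f : Finset α → ℝ) :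
    p * expect p E (fun ω => if e ∈ ω then 0 else f ω)
      = (1 - p) * expect p E (fun ω => if e ∈ ω then f (ω.erase e) else 0) := by
  have hE : E = insert e (E.erase e) := (insert_erase he).symm
  have hn : e ∉ E.erase e := notMem_erase e E
  rw [hE, expect_insert hn, expect_insert hn]
  have h1 : expect p (E.erase e) (fun ω => if e ∈ ω then 0 else f ω)
      = expect p (E.erase e) f :=
    expect_congr fun ω hω => if_neg fun h => hn (hω h)
  have h2 : expect p (E.erase e) (fun ω => if e ∈ ω then f (ω.erase e) else 0) = 0 := by
    rw [expect_congr (g := fun _ => (0:ℝ)) fun ω hω => if_neg fun h => hn (hω h), expect_const]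
  have h3 : expect p (E.erase e) (fun ω => if e ∈ insert e ω then 0 else f (insert e ω)) = 0 := by
    rw [expect_congr (g := fun _ => (0:ℝ)) fun ω _ => if_pos (mem_insert_self e ω), expect_const]
  have h4 : expect p (E.erase e)
      (fun ω => if e ∈ insert e ω then f ((insert e ω).erase e) else 0)
      = expect p (E.erase e) f :=
    expect_congr fun ω hω => by
      rw [if_pos (mem_insert_self e ω), erase_insert (fun h => hn (hω h))]
  rw [h1, h2, h3, h4]
  ring

/-- Probability that a given set is contained and an event of the rest holds. -/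
lemma expect_contains {p : ℝ} {E Q : Finset α} (hQ : Q ⊆ E) (f : Finset α → ℝ) :
    expect p E (fun ω => if Q ⊆ ω then f (ω \ Q) else 0) = p ^ #Q * expect p (E \ Q) f := by
  induction Q using Finset.induction_on generalizing E f with
  | empty => simp
  | insert a Q ha ih =>
    rw [insert_subset_iff] at hQ
    have hE : E = insert a (E.erase a) := (insert_erase hQ.1).symm
    have hn : a ∉ E.erase a := notMem_erase a E
    have hsd : E \ insert a Q = E.erase a \ Q := by
      ext x; simp only [mem_sdiff, mem_insert, mem_erase]; tauto
    have hQ' : Q ⊆ E.erase a := fun x hx =>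
      mem_erase.2 ⟨fun h => ha (h ▸ hx), hQ.2 hx⟩
    rw [hsd]
    conv_lhs => rw [hE, expect_insert hn]
    have h1 : expect p (E.erase a)
        (fun ω => if insert a Q ⊆ ω then f (ω \ insert a Q) else 0) = 0 := by
      rw [expect_congr (g := fun _ => (0:ℝ)) fun ω hω =>
        if_neg fun h => hn (hω (h (mem_insert_self a Q))), expect_const]
    have h2 : expect p (E.erase a)
        (fun ω => if insert a Q ⊆ insert a ω then f (insert a ω \ insert a Q) else 0)
        = expect p (E.erase a) (fun ω => if Q ⊆ ω then f (ω \ Q) else 0) := by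
      refine expect_congr fun ω hω => ?_
      have haw : a ∉ ω := fun h => hn (hω h)
      have e1 : insert a Q ⊆ insert a ω ↔ Q ⊆ ω := insert_subset_insert_iff ha
      have e2 : insert a ω \ insert a Q = ω \ Q := by
        ext x; simp only [mem_sdiff, mem_insert]
        by_cases hx : x = a <;> simp [hx, haw]
      simp only [e1, e2]
    rw [h1, h2, ih hQ', card_insert_of_notMem ha, pow_succ]
    ring

/-- Russo-type derivative formula. -/
lemma hasDerivAt_expect (p : ℝ) (E : Finset α) (f : Finset α → ℝ) :
    HasDerivAt (fun q => expect q E f)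
      (∑ e ∈ E, expect p (E.erase e) (fun ω => f (insert e ω) - f ω)) p := by
  induction E using Finset.induction_on generalizing f with
  | empty => simpa [expect_empty] using hasDerivAt_const p (f ∅)
  | insert a E ha ih =>
    have hfun : (fun q => expect q (insert a E) f) = fun q =>
        (1 - q) * expect q E f + q * expect q E (fun ω => f (insert a ω)) := by
      funext q; exact expect_insert ha f
    rw [hfun]
    have hd := (((hasDerivAt_id p).const_sub 1).mul (ih f)).add
      ((hasDerivAt_id p).mul (ih (fun ω => f (insert a ω))))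
    refine hd.congr_deriv ?_
    rw [sum_insert ha, erase_insert ha]
    have hrest : ∀ e ∈ E,
        expect p ((insert a E).erase e) (fun ω => f (insert e ω) - f ω)
          = (1 - p) * expect p (E.erase e) (fun ω => f (insert e ω) - f ω)
            + p * expect p (E.erase e)
                (fun ω => f (insert a (insert e ω)) - f (insert a ω)) := by
      intro e he
      have hne : a ≠ e := fun h => ha (h ▸ he)
      rw [erase_insert_of_ne hne, expect_insert (fun h => ha (mem_of_mem_erase h))]
      simp only [Finset.insert_comm e a]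
    rw [sum_congr rfl hrest, sum_add_distrib, ← mul_sum, ← mul_sum, expect_sub]
    simp only [id_eq]
    ring

lemma deriv_expect_mul {p : ℝ} (E : Finset α) (f : Finset α → ℝ) :
    (1 - p) * ∑ e ∈ E, expect p (E.erase e) (fun ω => f (insert e ω) - f ω)
      = expect p E (fun ω => ∑ e ∈ E, if e ∈ ω then 0 else f (insert e ω) - f ω) := by
  rw [expect_sum, mul_sum]
  refine sum_congr rfl fun e he => ?_
  have hE : E = insert e (E.erase e) := (insert_erase he).symm
  have hn : e ∉ E.erase e := notMem_erase e E
  conv_rhs => rw [hE, expect_insert hn]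
  have h1 : expect p (E.erase e) (fun ω => if e ∈ ω then 0 else f (insert e ω) - f ω)
      = expect p (E.erase e) (fun ω => f (insert e ω) - f ω) :=
    expect_congr fun ω hω => if_neg fun h => hn (hω h)
  have h3 : expect p (E.erase e)
      (fun ω => if e ∈ insert e ω then 0 else f (insert e (insert e ω)) - f (insert e ω))
        = 0 := by
    rw [expect_congr (g := fun _ => (0:ℝ)) fun ω _ => if_pos (mem_insert_self e ω), expect_const]
  rw [h1, h3]
  ring

end Vale.Agent.P165
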