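import Vale.Agent.P165.Defs

/-!
Walk counting in a locally finite graph, and the bound coming from the ℓ² norm of the
adjacency operator.
-/

namespace Vale.Agent.P165

open Finset SimpleGraph

set_option linter.unusedSectionVars false

variable {V : Type*} [DecidableEq V] (G : SimpleGraph V) [G.LocallyFinite]

lemma AdjNorm.inter {lam : ℝ} (h : AdjNorm G lam) (T : Finset V) (f : V → ℝ) :
    ∑ x ∈ T, (∑ y ∈ G.neighborFinset x ∩ T, f y) ^ 2 ≤ lam ^ 2 * ∑ x ∈ T, f x ^ 2 := by
  refine le_of_eq_of_le (sum_congr rfl fun x _ => ?_) (h T f)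
  congr 1
  rw [← sum_filter]
  refine sum_congr ?_ fun _ _ => rfl
  ext y
  simp [and_comm]

/-- Number of walks with `n` steps. -/
def nWalks (n : ℕ) (x y : V) : ℕ := #(G.finsetWalkLength n x y)

lemma nWalks_zero (x y : V) : nWalks G 0 x y = if x = y then 1 else 0 := by
  unfold nWalks
  by_cases h : x = y
  · subst h; simp [finsetWalkLength]
  · simp [finsetWalkLength, h]

lemma nWalks_succ (n : ℕ) (x y : V) :
    nWalks G (n + 1) x y = ∑ z ∈ G.neighborFinset x, nWalks G n z y := by
  unfold nWalks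
  rw [finsetWalkLength, card_biUnion]
  · simp only [card_map]
    rw [Finset.sum_subtype (G.neighborFinset x) (p := fun z => z ∈ G.neighborSet x)
      (fun z => by rw [mem_neighborFinset, mem_neighborSet])]
  · intro w _ w' _ hne
    simp only [Function.onFun, Finset.disjoint_left, Finset.mem_map]
    rintro q ⟨a, _, rfl⟩ ⟨b, _, hb⟩
    apply hne
    injection hb with _ h2 _ _
    exact Subtype.ext h2.symm

lemma nWalks_one (x y : V) : nWalks G 1 x y = if y ∈ G.neighborFinset x then 1 else 0 := by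
  rw [nWalks_succ]
  simp only [nWalks_zero]
  rw [sum_ite_eq']

lemma nWalks_add_ge (a b : ℕ) (u v : V) (T : Finset V) :
    ∑ x ∈ T, nWalks G a u x * nWalks G b x v ≤ nWalks G (a + b) u v := by
  induction a generalizing u with
  | zero =>
    simp only [nWalks_zero, Nat.zero_add, ite_mul, one_mul, zero_mul, sum_ite_eq]
    split_ifs
    · exact le_rfl
    · exact Nat.zero_le _
  | succ a ih =>
    rw [show a + 1 + b = (a + b) + 1 by omega, nWalks_succ]
    calc ∑ x ∈ T, nWalks G (a + 1) u x * nWalks G b x v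
        = ∑ z ∈ G.neighborFinset u, ∑ x ∈ T, nWalks G a z x * nWalks G b x v := by
          rw [sum_comm]
          refine sum_congr rfl fun x _ => ?_
          rw [nWalks_succ, sum_mul]
      _ ≤ _ := sum_le_sum fun z _ => ih z

lemma nWalks_succ' (n : ℕ) (x y : V) :
    nWalks G (n + 1) x y = ∑ z ∈ G.neighborFinset y, nWalks G n x z := by
  induction n generalizing x with
  | zero =>
    rw [nWalks_one]
    simp only [nWalks_zero, sum_ite_eq]
    by_cases hA : G.Adj x y <;> simp [hA, G.adj_comm y x]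
  | succ n ih =>
    rw [nWalks_succ]
    simp only [ih]
    rw [sum_comm]
    exact sum_congr rfl fun z _ => (nWalks_succ G n x z).symm

lemma sum_pairs_le (k l : ℕ) (w : V) (T : Finset V) :
    ∑ x ∈ T, ∑ y ∈ G.neighborFinset x ∩ T, nWalks G k w x * nWalks G l y w
      ≤ nWalks G (k + l + 1) w w := by
  calc ∑ x ∈ T, ∑ y ∈ G.neighborFinset x ∩ T, nWalks G k w x * nWalks G l y w
      ≤ ∑ x ∈ T, nWalks G k w x * nWalks G (l + 1) x w := by
        refine sum_le_sum fun x _ => ?_
        rw [← mul_sum, nWalks_succ]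
        exact Nat.mul_le_mul_left _ (sum_le_sum_of_subset inter_subset_left)
    _ ≤ _ := by
        have := nWalks_add_ge G k (l + 1) w w T
        simpa [Nat.add_assoc] using this

/-- Walks from `x` to the finite set `U`. -/
def toSet (j : ℕ) (U : Finset V) (x : V) : ℝ := ∑ z ∈ U, (nWalks G j x z : ℝ)

/-- `j`-neighbourhood of `U`. -/
def nbhd (U : Finset V) : ℕ → Finset V
  | 0 => U
  | j + 1 => nbhd U j ∪ (nbhd U j).biUnion fun y => G.neighborFinset y

lemma toSet_succ (j : ℕ) (U : Finset V) (x : V) :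
    toSet G (j + 1) U x = ∑ y ∈ G.neighborFinset x, toSet G j U y := by
  unfold toSet
  rw [sum_comm]
  refine sum_congr rfl fun z _ => ?_
  rw [nWalks_succ, Nat.cast_sum]

lemma toSet_support (j : ℕ) (U : Finset V) {x : V} (h : toSet G j U x ≠ 0) :
    x ∈ nbhd G U j := by
  induction j generalizing x with
  | zero =>
    unfold toSet at h
    obtain ⟨z, hz, hne⟩ := exists_ne_zero_of_sum_ne_zero h
    rw [nWalks_zero] at hne
    by_cases hxz : x = z
    · exact hxz ▸ hz
    · simp [hxz] at hne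
  | succ j ih =>
    rw [toSet_succ] at h
    obtain ⟨y, hy, hne⟩ := exists_ne_zero_of_sum_ne_zero h
    simp only [nbhd, Finset.mem_union, mem_biUnion]
    refine Or.inr ⟨y, ih hne, ?_⟩
    rw [mem_neighborFinset] at hy ⊢
    exact hy.symm

lemma toSet_sq_le {lam : ℝ} (h : AdjNorm G lam) (j : ℕ) (U X : Finset V) :
    ∑ x ∈ X, toSet G j U x ^ 2 ≤ (lam ^ 2) ^ j * #U := by
  induction j generalizing X with
  | zero =>
    calc ∑ x ∈ X, toSet G 0 U x ^ 2 = ∑ x ∈ X, (if x ∈ U then (1:ℝ) else 0) := by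
          refine sum_congr rfl fun x _ => ?_
          unfold toSet
          simp only [nWalks_zero, Nat.cast_ite, Nat.cast_one, Nat.cast_zero, sum_ite_eq]
          split_ifs <;> norm_num
      _ = #(X ∩ U) := by rw [sum_boole, filter_mem_eq_inter]
      _ ≤ _ := by
          rw [pow_zero, one_mul]
          exact_mod_cast card_le_card inter_subset_right
  | succ j ih =>
    set T := X ∪ nbhd G U j with hT
    have h1 : ∑ x ∈ X, toSet G (j + 1) U x ^ 2 ≤ ∑ x ∈ T, toSet G (j + 1) U x ^ 2 :=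
      sum_le_sum_of_subset_of_nonneg subset_union_left fun _ _ _ => sq_nonneg _
    have h2 : ∀ x, toSet G (j + 1) U x = ∑ y ∈ G.neighborFinset x ∩ T, toSet G j U y := by
      intro x
      rw [toSet_succ]
      refine (sum_subset inter_subset_left fun y hy hyn => ?_).symm
      by_contra hne
      exact hyn (mem_inter.2 ⟨hy, mem_union_right _ (toSet_support G j U hne)⟩)
    simp only [h2] at h1 ⊢
    calc _ ≤ _ := h1
      _ ≤ lam ^ 2 * ∑ x ∈ T, toSet G j U x ^ 2 := AdjNorm.inter G h T _
      _ ≤ lam ^ 2 * ((lam ^ 2) ^ j * #U) := mul_le_mul_of_nonneg_left (ih T) (sq_nonneg _)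
      _ = _ := by ring

lemma nWalks_le {lam : ℝ} (h : AdjNorm G lam) (hlam : 0 ≤ lam) (n : ℕ) (x y : V) :
    (nWalks G n x y : ℝ) ≤ lam ^ n := by
  have h1 := toSet_sq_le G h n {y} {x}
  simp only [toSet, sum_singleton, card_singleton, Nat.cast_one, mul_one] at h1
  rw [← pow_mul, mul_comm, pow_mul] at h1
  exact (pow_le_pow_iff_left₀ (Nat.cast_nonneg _) (pow_nonneg hlam _) two_ne_zero).1 h1

lemma nWalks_closed_le {lam : ℝ} (h : AdjNorm G lam) (hlam : 0 ≤ lam) (j : ℕ) (w : V) :
    (nWalks G (j + 2) w w : ℝ) ≤ lam ^ j * #(G.neighborFinset w) := by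
  set U := G.neighborFinset w with hU
  have h0 : (nWalks G (j + 2) w w : ℝ) = ∑ x ∈ U, toSet G j U x := by
    rw [nWalks_succ, Nat.cast_sum]
    refine sum_congr rfl fun x _ => ?_
    rw [nWalks_succ', Nat.cast_sum]
    rfl
  have h2 := sum_mul_sq_le_sq_mul_sq U (fun _ => (1:ℝ)) (fun x => toSet G j U x)
  have h3 := toSet_sq_le G h j U U
  simp only [one_mul, one_pow, sum_const, nsmul_eq_mul, mul_one] at h2
  rw [h0]
  refine (pow_le_pow_iff_left₀ (sum_nonneg fun x _ => sum_nonneg fun z _ => Nat.cast_nonneg _)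
    (by positivity) two_ne_zero).1 ?_
  calc _ ≤ _ := h2
    _ ≤ (#U : ℝ) * ((lam ^ 2) ^ j * #U) := mul_le_mul_of_nonneg_left h3 (Nat.cast_nonneg _)
    _ = (lam ^ j * #U) ^ 2 := by rw [← pow_mul, mul_comm 2 j, pow_mul]; ring

lemma nWalks_one_self (w : V) : nWalks G 1 w w = 0 := by
  rw [nWalks_one, if_neg]
  simp

end Vale.Agent.P165
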