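import Vale.Agent.P165.Expect
import Vale.Agent.P165.Walks

/-!
Finite-volume estimates: the expected number of edges leaving a finite set from the cluster of
the origin, and the resulting differential inequality.
-/

namespace Vale.Agent.P165

open Finset SimpleGraph
open scoped Classical

set_option linter.unusedSectionVars false

variable {V : Type*} (G : SimpleGraph V) [G.LocallyFinite]

/-- The graph of a finite set of open edges. -/
def og (ω : Finset (Sym2 V)) : SimpleGraph V := fromEdgeSet (↑ω : Set (Sym2 V))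

lemma og_mono {a b : Finset (Sym2 V)} (h : a ⊆ b) : og a ≤ og b :=
  fromEdgeSet_mono (by exact_mod_cast h)

lemma og_adj {ω : Finset (Sym2 V)} {x y : V} : (og ω).Adj x y ↔ s(x, y) ∈ ω ∧ x ≠ y := by
  simp [og]

lemma og_edgeSet {ω : Finset (Sym2 V)} {e : Sym2 V} (h : e ∈ (og ω).edgeSet) : e ∈ ω := by
  rw [og, edgeSet_fromEdgeSet] at h
  exact_mod_cast h.1

/-- Internal edges of `S`. -/
noncomputable def edgesIn (S : Finset V) : Finset (Sym2 V) :=
  S.biUnion fun x => (G.neighborFinset x ∩ S).image fun y => s(x, y)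

/-- Edges touching `B`. -/
noncomputable def edgesAt (B : Finset V) : Finset (Sym2 V) :=
  B.biUnion fun x => (G.neighborFinset x).image fun y => s(x, y)

lemma mem_edgesIn {S : Finset V} {x y : V} :
    s(x, y) ∈ edgesIn G S ↔ G.Adj x y ∧ x ∈ S ∧ y ∈ S := by
  simp only [edgesIn, mem_biUnion, Finset.mem_image, Finset.mem_inter, mem_neighborFinset,
    Sym2.eq_iff]
  constructor
  · rintro ⟨a, ha, b, ⟨hab, hb⟩, ⟨rfl, rfl⟩ | ⟨rfl, rfl⟩⟩
    · exact ⟨hab, ha, hb⟩
    · exact ⟨hab.symm, hb, ha⟩
  · rintro ⟨h, hx, hy⟩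
    exact ⟨x, hx, y, ⟨h, hy⟩, Or.inl ⟨rfl, rfl⟩⟩

lemma mem_edgesAt {B : Finset V} {x y : V} :
    s(x, y) ∈ edgesAt G B ↔ G.Adj x y ∧ (x ∈ B ∨ y ∈ B) := by
  simp only [edgesAt, mem_biUnion, Finset.mem_image, mem_neighborFinset, Sym2.eq_iff]
  constructor
  · rintro ⟨a, ha, b, hab, ⟨rfl, rfl⟩ | ⟨rfl, rfl⟩⟩
    · exact ⟨hab, Or.inl ha⟩
    · exact ⟨hab.symm, Or.inr ha⟩
  · rintro ⟨h, hx | hy⟩
    · exact ⟨x, hx, y, h, Or.inl ⟨rfl, rfl⟩⟩
    · exact ⟨y, hy, x, h.symm, Or.inr ⟨rfl, rfl⟩⟩

lemma edgesIn_subset_edgesAt {S B : Finset V} (h : S ⊆ B) : edgesIn G S ⊆ edgesAt G B := by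
  intro e
  induction e using Sym2.ind with
  | h x y =>
    rw [mem_edgesIn, mem_edgesAt]
    exact fun ⟨ha, hx, _⟩ => ⟨ha, Or.inl (h hx)⟩

lemma walk_support_subset {S : Finset V} {ω : Finset (Sym2 V)} (hω : ω ⊆ edgesIn G S) {x y : V}
    (p : (og ω).Walk x y) (hx : x ∈ S) : ∀ z ∈ p.support, z ∈ S := by
  induction p with
  | nil => simp [hx]
  | @cons a b c hab q ih =>
    intro z hz
    rw [Walk.support_cons, List.mem_cons] at hz
    rcases hz with rfl | hz
    · exact hx
    · exact ih ((mem_edgesIn G).1 (hω (og_adj.1 hab).1)).2.2 z hz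

/-- The cluster of `o` inside `S`. -/
noncomputable def cluster (ω : Finset (Sym2 V)) (S : Finset V) (o : V) : Finset V :=
  S.filter fun x => (og ω).Reachable o x

lemma og_le_of_subset_edgesIn {S : Finset V} {ω : Finset (Sym2 V)} (hω : ω ⊆ edgesIn G S) :
    og ω ≤ G := by
  intro x y h
  exact ((mem_edgesIn G).1 (hω (og_adj.1 h).1)).1

lemma walk_first_hit {H : SimpleGraph V} (l : List V) {y z : V} (p : H.Walk y z) (hz : z ∈ l) :
    ∃ w ∈ l, ∃ q : H.Walk y w, ∀ e ∈ q.edges, ∃ v ∈ e, v ∉ l := by
  induction p with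
  | nil => exact ⟨_, hz, Walk.nil, by simp⟩
  | @cons a b c hab q ih =>
    by_cases ha : a ∈ l
    · exact ⟨a, ha, Walk.nil, by simp⟩
    · obtain ⟨w, hw, q', hq'⟩ := ih hz
      refine ⟨w, hw, Walk.cons hab q', ?_⟩
      intro e he
      rw [Walk.edges_cons, List.mem_cons] at he
      rcases he with rfl | he
      · exact ⟨a, Sym2.mem_mk_left _ _, ha⟩
      · exact hq' e he

/-- Union of the edge sets of two walks. -/
noncomputable def pairEdges {w x y : V} (a : G.Walk w x) (b : G.Walk y w) : Finset (Sym2 V) :=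
  a.edges.toFinset ∪ b.edges.toFinset

/-- Weight of a pair of walks. -/
noncomputable def pairTerm (ω : Finset (Sym2 V)) (o : V) {w x y : V} (a : G.Walk w x)
    (b : G.Walk y w) : ℝ :=
  if #(pairEdges G a b) = a.length + b.length then
    (if pairEdges G a b ⊆ ω then
      (if (og (ω \ pairEdges G a b)).Reachable o w then 1 else 0) else 0) else 0

lemma pairTerm_nonneg (ω : Finset (Sym2 V)) (o : V) {w x y : V} (a : G.Walk w x)
    (b : G.Walk y w) : 0 ≤ pairTerm G ω o a b := by
  unfold pairTerm; split_ifs <;> norm_num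

lemma exists_pair {S : Finset V} {ω : Finset (Sym2 V)} (hω : ω ⊆ edgesIn G S) {o x y : V}
    (ho : o ∈ S) (hx : (og ω).Reachable o x) (hy : (og ω).Reachable o y) :
    ∃ w ∈ S, ∃ a : G.Walk w x, ∃ b : G.Walk y w,
      a.length < #S ∧ b.length < #S ∧ pairTerm G ω o a b = 1 := by
  obtain ⟨γ0⟩ := hx
  obtain ⟨δ0⟩ := hy.symm
  set γ := γ0.bypass with hγ
  have hγp : γ.IsPath := γ0.bypass_isPath
  obtain ⟨w, hw, q, hq⟩ := walk_first_hit γ.support δ0 γ.start_mem_support
  have hγS : ∀ z ∈ γ.support, z ∈ S := walk_support_subset G hω γ ho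
  have hwS : w ∈ S := hγS w hw
  set a0 := γ.dropUntil w hw with ha0
  set c0 := γ.takeUntil w hw with hc0
  set b0 := q.bypass with hb0
  have ha0p : a0.IsPath := hγp.dropUntil hw
  have hb0p : b0.IsPath := q.bypass_isPath
  have hle := og_le_of_subset_edgesIn G hω
  refine ⟨w, hwS, a0.mapLe hle, b0.mapLe hle, ?_, ?_, ?_⟩
  · rw [Walk.length_mapLe]
    have h1 : a0.support.toFinset ⊆ S := fun z hz =>
      walk_support_subset G hω a0 hwS z (List.mem_toFinset.1 hz)
    have h2 := Finset.card_le_card h1
    rw [List.toFinset_card_of_nodup ha0p.support_nodup, Walk.length_support] at h2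
    omega
  · rw [Walk.length_mapLe]
    have hyS : y ∈ S := by
      obtain ⟨r⟩ := hy
      exact walk_support_subset G hω r ho y r.end_mem_support
    have h1 : b0.support.toFinset ⊆ S := fun z hz =>
      walk_support_subset G hω b0 hyS z (List.mem_toFinset.1 hz)
    have h2 := Finset.card_le_card h1
    rw [List.toFinset_card_of_nodup hb0p.support_nodup, Walk.length_support] at h2
    omega
  · have hbedge : ∀ e ∈ b0.edges, ∃ v ∈ e, v ∉ γ.support := fun e he =>
      hq e (q.edges_bypass_subset he)
    have hbg : ∀ e ∈ b0.edges, e ∉ γ.edges := by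
      intro e he heγ
      obtain ⟨v, hv, hvn⟩ := hbedge e he
      exact hvn (Walk.mem_support_of_mem_edges heγ hv)
    have hspec : γ.edges = c0.edges ++ a0.edges := by
      rw [← Walk.edges_append, hc0, ha0, Walk.take_spec]
    have hnd : (c0.edges ++ a0.edges).Nodup := hspec ▸ hγp.isTrail.edges_nodup
    have hQ : pairEdges G (a0.mapLe hle) (b0.mapLe hle)
        = a0.edges.toFinset ∪ b0.edges.toFinset := by
      simp only [pairEdges, Walk.edges_mapLe_eq_edges]
    have hdis : Disjoint a0.edges.toFinset b0.edges.toFinset := by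
      rw [Finset.disjoint_left]
      intro e he1 he2
      rw [List.mem_toFinset] at he1 he2
      exact hbg e he2 (hspec ▸ List.mem_append_right _ he1)
    have hcard : #(pairEdges G (a0.mapLe hle) (b0.mapLe hle))
        = (a0.mapLe hle).length + (b0.mapLe hle).length := by
      rw [hQ, card_union_of_disjoint hdis, List.toFinset_card_of_nodup ha0p.isTrail.edges_nodup,
        List.toFinset_card_of_nodup hb0p.isTrail.edges_nodup, Walk.length_edges,
        Walk.length_edges, Walk.length_mapLe, Walk.length_mapLe]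
    have hsub : pairEdges G (a0.mapLe hle) (b0.mapLe hle) ⊆ ω := by
      rw [hQ]
      intro e he
      rw [Finset.mem_union, List.mem_toFinset, List.mem_toFinset] at he
      rcases he with he | he
      · exact og_edgeSet (a0.edges_subset_edgeSet he)
      · exact og_edgeSet (b0.edges_subset_edgeSet he)
    have hreach : (og (ω \ pairEdges G (a0.mapLe hle) (b0.mapLe hle))).Reachable o w := by
      refine ⟨c0.transfer _ fun e he => ?_⟩
      have h1 : e ∈ (og ω).edgeSet := c0.edges_subset_edgeSet he
      rw [og, edgeSet_fromEdgeSet] at h1 ⊢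
      refine ⟨?_, h1.2⟩
      rw [Finset.mem_coe, Finset.mem_sdiff, hQ]
      refine ⟨by exact_mod_cast h1.1, ?_⟩
      rw [Finset.mem_union, List.mem_toFinset, List.mem_toFinset]
      rintro (ha | hb)
      · exact (List.nodup_append.1 hnd).2.2 e he e ha rfl
      · exact hbg e hb (hspec ▸ List.mem_append_left _ he)
    unfold pairTerm
    rw [if_pos hcard, if_pos hsub, if_pos hreach]

lemma expect_pairTerm_le {p : ℝ} (hp0 : 0 ≤ p) (hp1 : p ≤ 1) (E : Finset (Sym2 V)) (o : V)
    {w x y : V} (a : G.Walk w x) (b : G.Walk y w) :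
    expect p E (fun ω => pairTerm G ω o a b)
      ≤ p ^ (a.length + b.length) *
        expect p E (fun ω => if (og ω).Reachable o w then 1 else 0) := by
  set Q := pairEdges G a b with hQ
  have hR0 : 0 ≤ expect p E (fun ω => if (og ω).Reachable o w then (1:ℝ) else 0) :=
    expect_nonneg hp0 hp1 fun ω _ => by split_ifs <;> norm_num
  by_cases hc : #Q = a.length + b.length
  swap
  · rw [expect_congr (g := fun _ => (0:ℝ)) fun ω _ => by rw [pairTerm, ← hQ, if_neg hc],
      expect_const]
    exact mul_nonneg (pow_nonneg hp0 _) hR0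
  by_cases hQE : Q ⊆ E
  swap
  · rw [expect_congr (g := fun _ => (0:ℝ)) fun ω hω => by
      rw [pairTerm, ← hQ, if_pos hc, if_neg fun h => hQE (h.trans hω)], expect_const]
    exact mul_nonneg (pow_nonneg hp0 _) hR0
  have h1 : expect p E (fun ω => pairTerm G ω o a b)
      = expect p E (fun ω => if Q ⊆ ω then
          (fun ξ => if (og ξ).Reachable o w then (1:ℝ) else 0) (ω \ Q) else 0) :=
    expect_congr fun ω _ => by rw [pairTerm, ← hQ, if_pos hc]
  rw [h1, expect_contains hQE (fun ξ => if (og ξ).Reachable o w then (1:ℝ) else 0), hc]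
  refine mul_le_mul_of_nonneg_left ?_ (pow_nonneg hp0 _)
  conv_rhs => rw [← Finset.sdiff_union_of_subset hQE, expect_union Finset.sdiff_disjoint]
  refine expect_mono hp0 hp1 fun u _ => ?_
  calc (if (og u).Reachable o w then (1:ℝ) else 0)
      = expect p Q (fun _ => if (og u).Reachable o w then (1:ℝ) else 0) :=
        (expect_const p Q _).symm
    _ ≤ _ := expect_mono hp0 hp1 fun v _ => by
        by_cases h : (og u).Reachable o w
        · rw [if_pos h, if_pos (h.mono (og_mono subset_union_left))]
        · rw [if_neg h]; split_ifs <;> norm_num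

/-- The short-cycle constant. -/
noncomputable def cycleConst (p lam : ℝ) (D : ℕ) : ℝ := 2 * p * D / (1 - p * lam) ^ 2

lemma two_geom_le {r : ℝ} (h0 : 0 ≤ r) (h1 : r < 1) (n : ℕ) :
    ∑ i ∈ range n, ∑ j ∈ range n, r ^ (i + j) ≤ 1 / (1 - r) ^ 2 := by
  have hg : ∑ i ∈ range n, r ^ i ≤ 1 / (1 - r) := by
    rw [le_div_iff₀ (by linarith)]
    have hm := geom_sum_mul_neg r n
    have := pow_nonneg h0 n
    linarith
  simp only [pow_add, ← mul_sum, ← sum_mul]
  calc (∑ i ∈ range n, r ^ i) * ∑ j ∈ range n, r ^ j ≤ (1 / (1 - r)) * (1 / (1 - r)) := by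
        refine mul_le_mul hg hg (sum_nonneg fun i _ => pow_nonneg h0 i) ?_
        exact div_nonneg zero_le_one (by linarith)
    _ = _ := by rw [div_mul_div_comm, one_mul, sq]

lemma sum_cycles_le {lam p : ℝ} (hlam : 0 ≤ lam) (hp : 0 ≤ p) (hr : p * lam < 1) {D : ℕ}
    (hD : ∀ x, #(G.neighborFinset x) ≤ D) (hN : AdjNorm G lam) (n : ℕ) (w : V) :
    ∑ k ∈ range n, ∑ l ∈ range n, p ^ (k + l) * (nWalks G (k + l + 1) w w : ℝ)
      ≤ cycleConst p lam D := by
  set r := p * lam with hrdef
  have hr0 : 0 ≤ r := mul_nonneg hp hlam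
  have hbound : ∀ j, p ^ (j + 1) * (nWalks G (j + 2) w w : ℝ) ≤ p * D * r ^ j := by
    intro j
    calc p ^ (j + 1) * (nWalks G (j + 2) w w : ℝ) ≤ p ^ (j + 1) * (lam ^ j * D) := by
          refine mul_le_mul_of_nonneg_left ((nWalks_closed_le G hN hlam j w).trans ?_)
            (pow_nonneg hp _)
          exact mul_le_mul_of_nonneg_left (by exact_mod_cast hD w) (pow_nonneg hlam _)
      _ = _ := by rw [hrdef, mul_pow, pow_succ]; ring
  have hg := two_geom_le hr0 hr n
  have hC : 0 ≤ p * D := mul_nonneg hp (Nat.cast_nonneg _)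
  calc ∑ k ∈ range n, ∑ l ∈ range n, p ^ (k + l) * (nWalks G (k + l + 1) w w : ℝ)
      ≤ ∑ k ∈ range n, ∑ l ∈ range n,
          ((if k = 0 then 0 else p * D * r ^ (k - 1 + l))
            + if l = 0 then 0 else p * D * r ^ (k + (l - 1))) := by
        refine sum_le_sum fun k _ => sum_le_sum fun l _ => ?_
        rcases k with _ | k
        · rcases l with _ | l
          · simp [nWalks_one_self]
          · simpa using hbound l
        · have h2 : (0:ℝ) ≤ if l = 0 then 0 else p * D * r ^ (k + 1 + (l - 1)) := by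
            split_ifs <;> positivity
          have := hbound (k + l)
          rw [show k + 1 + l = k + l + 1 by omega, show k + l + 1 + 1 = k + l + 2 by omega,
            if_neg (Nat.succ_ne_zero k), show k + 1 - 1 = k by omega]
          linarith
    _ ≤ p * D * (1 / (1 - r) ^ 2) + p * D * (1 / (1 - r) ^ 2) := by
        have hpos : ∀ i j : ℕ, 0 ≤ p * (D:ℝ) * r ^ (i + j) := fun i j =>
          mul_nonneg hC (pow_nonneg hr0 _)
        have hshift : ∀ f : ℕ → ℝ, (∀ i, 0 ≤ f i) → ∀ m : ℕ,
            ∑ i ∈ range m, (if i = 0 then 0 else f (i - 1)) ≤ ∑ i ∈ range m, f i := by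
          intro f hf m
          rcases m with _ | m
          · simp
          · rw [sum_range_succ']
            simp only [Nat.succ_ne_zero, if_false, Nat.add_sub_cancel, if_true, add_zero]
            exact sum_le_sum_of_subset_of_nonneg
              (range_subset_range.2 (Nat.le_succ m)) fun i _ _ => hf i
        simp only [sum_add_distrib]
        refine add_le_add ?_ ?_
        · rw [sum_comm]
          calc _ ≤ ∑ l ∈ range n, ∑ k ∈ range n, p * D * r ^ (k + l) :=
                sum_le_sum fun l _ => hshift (fun i => p * D * r ^ (i + l)) (fun i => hpos i l) n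
            _ ≤ _ := by
                rw [sum_comm]; simp only [← mul_sum]
                exact mul_le_mul_of_nonneg_left hg hC
        · calc _ ≤ ∑ k ∈ range n, ∑ l ∈ range n, p * D * r ^ (k + l) :=
                sum_le_sum fun k _ => hshift (fun i => p * D * r ^ (k + i)) (fun i => hpos k i) n
            _ ≤ _ := by simp only [← mul_sum]; exact mul_le_mul_of_nonneg_left hg hC
    _ = cycleConst p lam D := by rw [cycleConst, hrdef]; ring

lemma expect_pairs_le {lam p : ℝ} (hlam : 0 ≤ lam) (hp0 : 0 ≤ p) (hp1 : p ≤ 1)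
    (hr : p * lam < 1) {D : ℕ} (hD : ∀ x, #(G.neighborFinset x) ≤ D) (hN : AdjNorm G lam)
    (S : Finset V) {o : V} (ho : o ∈ S) :
    expect p (edgesIn G S) (fun ω => ∑ x ∈ cluster ω S o,
        (#((G.neighborFinset x ∩ S).filter fun y => (og ω).Reachable o y) : ℝ))
      ≤ cycleConst p lam D * expect p (edgesIn G S) (fun ω => (#(cluster ω S o) : ℝ)) := by
  set n := #S with hn
  set τ : V → ℝ := fun w =>
    expect p (edgesIn G S) (fun ω => if (og ω).Reachable o w then (1:ℝ) else 0) with hτ
  have hτ0 : ∀ w, 0 ≤ τ w := fun w =>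
    expect_nonneg hp0 hp1 fun ω _ => by split_ifs <;> norm_num
  calc expect p (edgesIn G S) (fun ω => ∑ x ∈ cluster ω S o,
        (#((G.neighborFinset x ∩ S).filter fun y => (og ω).Reachable o y) : ℝ))
      ≤ expect p (edgesIn G S) (fun ω => ∑ w ∈ S, ∑ k ∈ range n, ∑ l ∈ range n,
          ∑ x ∈ S, ∑ y ∈ G.neighborFinset x ∩ S, ∑ a ∈ G.finsetWalkLength k w x,
            ∑ b ∈ G.finsetWalkLength l y w, pairTerm G ω o a b) := by
        refine expect_mono hp0 hp1 fun ω hω => ?_
        have hnn : ∀ x y w k l, 0 ≤ ∑ a ∈ G.finsetWalkLength k w x,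
            ∑ b ∈ G.finsetWalkLength l y w, pairTerm G ω o a b := fun x y w k l =>
          sum_nonneg fun a _ => sum_nonneg fun b _ => pairTerm_nonneg G ω o a b
        calc (∑ x ∈ cluster ω S o,
              (#((G.neighborFinset x ∩ S).filter fun y => (og ω).Reachable o y) : ℝ))
            = ∑ x ∈ S, ∑ y ∈ G.neighborFinset x ∩ S,
                if (og ω).Reachable o x ∧ (og ω).Reachable o y then (1:ℝ) else 0 := by
              rw [cluster, sum_filter]
              refine sum_congr rfl fun x _ => ?_
              split_ifs with h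
              · rw [← sum_boole]; simp only [h, true_and]
              · simp [h]
          _ ≤ ∑ x ∈ S, ∑ y ∈ G.neighborFinset x ∩ S, ∑ w ∈ S, ∑ k ∈ range n, ∑ l ∈ range n,
                ∑ a ∈ G.finsetWalkLength k w x, ∑ b ∈ G.finsetWalkLength l y w,
                  pairTerm G ω o a b := by
              refine sum_le_sum fun x _ => sum_le_sum fun y _ => ?_
              split_ifs with h
              · obtain ⟨w, hw, a, b, ha, hb, hab⟩ := exists_pair G hω ho h.1 h.2
                calc (1:ℝ) = pairTerm G ω o a b := hab.symm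
                  _ ≤ ∑ b' ∈ G.finsetWalkLength b.length y w, pairTerm G ω o a b' :=
                      single_le_sum (f := fun b' => pairTerm G ω o a b')
                        (fun b' _ => pairTerm_nonneg G ω o a b')
                        (mem_finsetWalkLength_iff.2 rfl)
                  _ ≤ ∑ a' ∈ G.finsetWalkLength a.length w x,
                        ∑ b' ∈ G.finsetWalkLength b.length y w, pairTerm G ω o a' b' :=
                      single_le_sum (f := fun a' => ∑ b' ∈ G.finsetWalkLength b.length y w,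
                          pairTerm G ω o a' b')
                        (fun a' _ => sum_nonneg fun b' _ => pairTerm_nonneg G ω o a' b')
                        (mem_finsetWalkLength_iff.2 rfl)
                  _ ≤ ∑ l ∈ range n, ∑ a' ∈ G.finsetWalkLength a.length w x,
                        ∑ b' ∈ G.finsetWalkLength l y w, pairTerm G ω o a' b' :=
                      single_le_sum (f := fun l => ∑ a' ∈ G.finsetWalkLength a.length w x,
                          ∑ b' ∈ G.finsetWalkLength l y w, pairTerm G ω o a' b')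
                        (fun l _ => hnn x y w _ l) (mem_range.2 hb)
                  _ ≤ ∑ k ∈ range n, ∑ l ∈ range n, ∑ a' ∈ G.finsetWalkLength k w x,
                        ∑ b' ∈ G.finsetWalkLength l y w, pairTerm G ω o a' b' :=
                      single_le_sum (f := fun k => ∑ l ∈ range n,
                          ∑ a' ∈ G.finsetWalkLength k w x,
                          ∑ b' ∈ G.finsetWalkLength l y w, pairTerm G ω o a' b')
                        (fun k _ => sum_nonneg fun l _ => hnn x y w k l) (mem_range.2 ha)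
                  _ ≤ _ :=
                      single_le_sum (f := fun w => ∑ k ∈ range n, ∑ l ∈ range n,
                          ∑ a' ∈ G.finsetWalkLength k w x,
                          ∑ b' ∈ G.finsetWalkLength l y w, pairTerm G ω o a' b')
                        (fun w _ => sum_nonneg fun k _ => sum_nonneg fun l _ => hnn x y w k l) hw
              · exact sum_nonneg fun w _ => sum_nonneg fun k _ => sum_nonneg fun l _ =>
                  hnn x y w k l
          _ = ∑ x ∈ S, ∑ w ∈ S, ∑ k ∈ range n, ∑ l ∈ range n, ∑ y ∈ G.neighborFinset x ∩ S,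
                ∑ a ∈ G.finsetWalkLength k w x, ∑ b ∈ G.finsetWalkLength l y w,
                  pairTerm G ω o a b := by
              refine sum_congr rfl fun x _ => ?_
              rw [sum_comm]
              refine sum_congr rfl fun w _ => ?_
              rw [sum_comm]
              refine sum_congr rfl fun k _ => ?_
              rw [sum_comm]
          _ = _ := by
              rw [sum_comm]
              refine sum_congr rfl fun w _ => ?_
              rw [sum_comm]
              refine sum_congr rfl fun k _ => ?_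
              rw [sum_comm]
    _ ≤ ∑ w ∈ S, ∑ k ∈ range n, ∑ l ∈ range n, p ^ (k + l) *
          ((nWalks G (k + l + 1) w w : ℕ) : ℝ) * τ w := by
        simp only [expect_sum]
        refine sum_le_sum fun w _ => sum_le_sum fun k _ => sum_le_sum fun l _ => ?_
        calc _ ≤ ∑ x ∈ S, ∑ y ∈ G.neighborFinset x ∩ S, ∑ _a ∈ G.finsetWalkLength k w x,
              ∑ _b ∈ G.finsetWalkLength l y w, p ^ (k + l) * τ w := by
              refine sum_le_sum fun x _ => sum_le_sum fun y _ => sum_le_sum fun a ha =>
                sum_le_sum fun b hb => ?_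
              rw [mem_finsetWalkLength_iff] at ha hb
              have := expect_pairTerm_le G hp0 hp1 (edgesIn G S) o a b
              rwa [ha, hb] at this
          _ = ((∑ x ∈ S, ∑ y ∈ G.neighborFinset x ∩ S,
                nWalks G k w x * nWalks G l y w : ℕ) : ℝ) * (p ^ (k + l) * τ w) := by
              simp only [sum_const, nsmul_eq_mul, Nat.cast_sum, Nat.cast_mul, sum_mul, nWalks,
                mul_assoc]
          _ ≤ (nWalks G (k + l + 1) w w : ℝ) * (p ^ (k + l) * τ w) :=
              mul_le_mul_of_nonneg_right (by exact_mod_cast sum_pairs_le G k l w S)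
                (mul_nonneg (pow_nonneg hp0 _) (hτ0 w))
          _ = _ := by ring
    _ ≤ ∑ w ∈ S, cycleConst p lam D * τ w := by
        refine sum_le_sum fun w _ => ?_
        simp only [← sum_mul]
        exact mul_le_mul_of_nonneg_right (sum_cycles_le G hlam hp0 hr hD hN n w) (hτ0 w)
    _ = _ := by
        rw [← mul_sum, hτ, ← expect_sum]
        congr 1
        refine expect_congr fun ω _ => ?_
        rw [cluster, sum_boole]

lemma entering_unique {ω : Finset (Sym2 V)} {o x x' y : V}
    (hxr : (og (ω.erase s(x, y))).Reachable o x)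
    (hxn : ¬ (og (ω.erase s(x, y))).Reachable o y)
    (he' : s(x', y) ∈ ω) (hne' : x' ≠ y)
    (hx'r : (og (ω.erase s(x', y))).Reachable o x')
    (hx'n : ¬ (og (ω.erase s(x', y))).Reachable o y) : x = x' := by
  by_contra hne
  have hadj : (og (ω.erase s(x, y))).Adj x' y := by
    refine og_adj.2 ⟨mem_erase.2 ⟨?_, he'⟩, hne'⟩
    intro h
    rw [Sym2.eq_iff] at h
    rcases h with ⟨h1, _⟩ | ⟨h1, _⟩
    · exact hne h1.symm
    · exact hne' h1
  obtain ⟨r⟩ := hx'r
  have hy : y ∉ r.support := fun h => hx'n ⟨r.takeUntil y h⟩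
  have h2 : ∀ e ∈ r.edges, e ∈ (og (ω.erase s(x, y))).edgeSet := by
    intro e he
    have h1 := r.edges_subset_edgeSet he
    rw [og, edgeSet_fromEdgeSet] at h1 ⊢
    refine ⟨?_, h1.2⟩
    rw [Finset.mem_coe, mem_erase]
    refine ⟨?_, mem_of_mem_erase (by exact_mod_cast h1.1)⟩
    intro hexy
    exact hy (Walk.mem_support_of_mem_edges he (hexy ▸ Sym2.mem_mk_right x y))
  exact hxn ((Reachable.trans ⟨r.transfer _ h2⟩ hadj.reachable))

lemma expect_boundary_le {p : ℝ} (hp0 : 0 ≤ p) (hp1 : p ≤ 1) {h : V → ℝ} (hh : ∀ x, 0 ≤ h x)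
    (S : Finset V) {o : V} (ho : o ∈ S) :
    p * expect p (edgesIn G S) (fun ω => ∑ x ∈ cluster ω S o,
        ∑ y ∈ (G.neighborFinset x ∩ S).filter (fun y => ¬ (og ω).Reachable o y), h y)
      ≤ (1 - p) * (expect p (edgesIn G S) (fun ω => ∑ y ∈ cluster ω S o, h y) - h o) := by
  set E := edgesIn G S with hE
  have hstep : ∀ x ∈ S, ∀ y ∈ G.neighborFinset x ∩ S,
      p * expect p E (fun ω =>
        if (og ω).Reachable o x ∧ ¬ (og ω).Reachable o y then h y else 0)
      = (1 - p) * expect p E (fun ω => if s(x, y) ∈ ω then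
          (if (og (ω.erase s(x, y))).Reachable o x ∧ ¬ (og (ω.erase s(x, y))).Reachable o y
            then h y else 0) else 0) := by
    intro x hx y hy
    rw [Finset.mem_inter, mem_neighborFinset] at hy
    have he : s(x, y) ∈ E := (mem_edgesIn G).2 ⟨hy.1, hx, hy.2⟩
    have heq : expect p E (fun ω =>
          if (og ω).Reachable o x ∧ ¬ (og ω).Reachable o y then h y else 0)
        = expect p E (fun ω => if s(x, y) ∈ ω then 0 else
          (if (og ω).Reachable o x ∧ ¬ (og ω).Reachable o y then h y else 0)) := by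
      refine expect_congr fun ω _ => ?_
      by_cases hm : s(x, y) ∈ ω
      · rw [if_pos hm, if_neg]
        rintro ⟨h1, h2⟩
        exact h2 (h1.trans (og_adj.2 ⟨hm, hy.1.ne⟩).reachable)
      · rw [if_neg hm]
    rw [heq]
    exact expect_flip he (fun ω =>
      if (og ω).Reachable o x ∧ ¬ (og ω).Reachable o y then h y else 0)
  calc p * expect p E (fun ω => ∑ x ∈ cluster ω S o,
        ∑ y ∈ (G.neighborFinset x ∩ S).filter (fun y => ¬ (og ω).Reachable o y), h y)
      = ∑ x ∈ S, ∑ y ∈ G.neighborFinset x ∩ S, p * expect p E (fun ω =>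
          if (og ω).Reachable o x ∧ ¬ (og ω).Reachable o y then h y else 0) := by
        simp only [← mul_sum, ← expect_sum]
        congr 1
        refine expect_congr fun ω _ => ?_
        rw [cluster, sum_filter]
        refine sum_congr rfl fun x _ => ?_
        rw [sum_filter]
        split_ifs with hr
        · simp [hr]
        · simp [hr]
    _ = ∑ x ∈ S, ∑ y ∈ G.neighborFinset x ∩ S,
          (1 - p) * expect p E (fun ω => if s(x, y) ∈ ω then
          (if (og (ω.erase s(x, y))).Reachable o x ∧ ¬ (og (ω.erase s(x, y))).Reachable o y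
            then h y else 0) else 0) :=
        sum_congr rfl fun x hx => sum_congr rfl fun y hy => hstep x hx y hy
    _ ≤ (1 - p) * expect p E (fun ω =>
          ∑ y ∈ S, if (og ω).Reachable o y ∧ y ≠ o then h y else 0) := by
        simp only [← mul_sum, ← expect_sum]
        refine mul_le_mul_of_nonneg_left (expect_mono hp0 hp1 fun ω _ => ?_) (by linarith)
        calc _ = ∑ y ∈ S, ∑ x ∈ S, (if y ∈ G.neighborFinset x then
                (if s(x, y) ∈ ω then
                  (if (og (ω.erase s(x, y))).Reachable o x ∧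
                      ¬ (og (ω.erase s(x, y))).Reachable o y
                    then h y else 0) else 0) else 0) := by
              rw [sum_comm (s := S) (t := S)]
              refine sum_congr rfl fun x _ => ?_
              rw [Finset.inter_comm, ← sum_ite_mem]
          _ ≤ _ := by
              refine sum_le_sum fun y _ => ?_
              by_cases hg : ∃ x ∈ S, y ∈ G.neighborFinset x ∧ s(x, y) ∈ ω ∧
                  (og (ω.erase s(x, y))).Reachable o x ∧ ¬ (og (ω.erase s(x, y))).Reachable o y
              · obtain ⟨x, hxS, hxy, hm, hr, hnr⟩ := hg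
                have hadj : G.Adj x y := by rwa [mem_neighborFinset] at hxy
                have hyr : (og ω).Reachable o y :=
                  (hr.mono (og_mono (erase_subset _ _))).trans
                    (og_adj.2 ⟨hm, hadj.ne⟩).reachable
                have hyo : y ≠ o := fun h => hnr (h ▸ Reachable.refl _)
                rw [if_pos ⟨hyr, hyo⟩, sum_eq_single x]
                · split_ifs
                  · exact le_rfl
                  all_goals exact hh y
                · intro x' _ hne
                  split_ifs with h1 h2 h3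
                  · rw [mem_neighborFinset] at h1
                    exact absurd (entering_unique hr hnr h2 h1.ne h3.1 h3.2) (Ne.symm hne)
                  all_goals rfl
                · exact fun h => absurd hxS h
              · rw [sum_eq_zero]
                · split_ifs
                  · exact hh y
                  · exact le_rfl
                · intro x hx
                  split_ifs with h1 h2 h3
                  · exact absurd ⟨x, hx, h1, h2, h3.1, h3.2⟩ hg
                  all_goals rfl
    _ = _ := by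
        congr 1
        have h1 : expect p E (fun ω =>
              ∑ y ∈ S, if (og ω).Reachable o y ∧ y ≠ o then h y else 0)
            = expect p E (fun ω => ∑ y ∈ cluster ω S o, h y) - expect p E (fun _ => h o) := by
          rw [← expect_sub]
          refine expect_congr fun ω _ => ?_
          have hm : o ∈ cluster ω S o := mem_filter.2 ⟨ho, Reachable.refl _⟩
          rw [← sum_erase_eq_sub hm, ← sum_filter]
          refine sum_congr ?_ fun _ _ => rfl
          ext z; simp only [cluster, mem_filter, mem_erase]; tauto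
        rw [h1, expect_const]

/-- Parameters of the criterion at `p`. -/
structure Crit (p lam : ℝ) (D : ℕ) (h : V → ℝ) (M Lam : ℝ) : Prop where
  p0 : 0 ≤ p
  p1 : p ≤ 1
  lam0 : 0 ≤ lam
  sub : p * lam < 1
  deg : ∀ x, #(G.neighborFinset x) ≤ D
  norm : AdjNorm G lam
  one_le : ∀ x, 1 ≤ h x
  le_M : ∀ x, h x ≤ M
  superharm : ∀ x, Lam * h x ≤ ∑ y ∈ G.neighborFinset x, h y
  main : 1 - p ≤ p * (Lam - M * cycleConst p lam D)

lemma phi_ge {p lam : ℝ} {D : ℕ} {h : V → ℝ} {M Lam : ℝ} (hc : Crit G p lam D h M Lam)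
    (S : Finset V) {o : V} (ho : o ∈ S) :
    1 - p ≤ M * (p * expect p (edgesIn G S) (fun ω => ∑ x ∈ cluster ω S o,
      (#(G.neighborFinset x \ S) : ℝ))) := by
  set E := edgesIn G S with hE
  have hh0 : ∀ x, 0 ≤ h x := fun x => zero_le_one.trans (hc.one_le x)
  set H := expect p E (fun ω => ∑ y ∈ cluster ω S o, h y) with hH
  set N := expect p E (fun ω => (#(cluster ω S o) : ℝ)) with hNdef
  have hb := expect_boundary_le G hc.p0 hc.p1 hh0 S ho
  have hq := expect_pairs_le G hc.lam0 hc.p0 hc.p1 hc.sub hc.deg hc.norm S ho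
  have hM : 0 ≤ M := (hh0 o).trans (hc.le_M o)
  set F1 := expect p E (fun ω => ∑ x ∈ cluster ω S o, (#(G.neighborFinset x \ S) : ℝ)) with hF1
  set F2 := expect p E (fun ω => ∑ x ∈ cluster ω S o,
        (#((G.neighborFinset x ∩ S).filter fun y => (og ω).Reachable o y) : ℝ)) with hF2
  set F3 := expect p E (fun ω => ∑ x ∈ cluster ω S o,
        ∑ y ∈ (G.neighborFinset x ∩ S).filter (fun y => ¬ (og ω).Reachable o y), h y) with hF3
  have hsplit : Lam * H ≤ M * F1 + M * F2 + F3 := by
    rw [hH, ← expect_mul_left, hF1, hF2, hF3, ← expect_mul_left, ← expect_mul_left,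
      ← expect_add, ← expect_add]
    refine expect_mono hc.p0 hc.p1 fun ω _ => ?_
    rw [mul_sum, mul_sum, mul_sum, ← sum_add_distrib, ← sum_add_distrib]
    refine sum_le_sum fun x _ => ?_
    refine (hc.superharm x).trans ?_
    have hMsum : ∀ T : Finset V, ∑ y ∈ T, h y ≤ M * #T := by
      intro T
      calc ∑ y ∈ T, h y ≤ ∑ _y ∈ T, M := sum_le_sum fun y _ => hc.le_M y
        _ = _ := by rw [sum_const, nsmul_eq_mul, mul_comm]
    rw [← sum_inter_add_sum_sdiff (G.neighborFinset x) S h,
      ← sum_filter_add_sum_filter_not (G.neighborFinset x ∩ S)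
        (fun y => (og ω).Reachable o y) h]
    have h1 := hMsum (G.neighborFinset x \ S)
    have h2 := hMsum ((G.neighborFinset x ∩ S).filter fun y => (og ω).Reachable o y)
    linarith
  have hNH : N ≤ H := by
    refine expect_mono hc.p0 hc.p1 fun ω _ => ?_
    rw [← nsmul_one, ← sum_const]
    exact sum_le_sum fun y _ => hc.one_le y
  have hH0 : 0 ≤ H := expect_nonneg hc.p0 hc.p1 fun ω _ => sum_nonneg fun y _ => hh0 y
  have hK0 : 0 ≤ cycleConst p lam D := by
    have := hc.p0
    unfold cycleConst
    positivity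
  have hpMK : 0 ≤ p * M * cycleConst p lam D := mul_nonneg (mul_nonneg hc.p0 hM) hK0
  have h2 := mul_le_mul_of_nonneg_left hq (mul_nonneg hc.p0 hM)
  have h3 := mul_le_mul_of_nonneg_left hsplit hc.p0
  have h4 := mul_le_mul_of_nonneg_left hNH hpMK
  have h5 := mul_le_mul_of_nonneg_right hc.main hH0
  have h6 := mul_le_mul_of_nonneg_left (hc.one_le o) (sub_nonneg.2 hc.p1)
  nlinarith

/-- `x` is connected to the outside of `B`. -/
def Esc (B : Finset V) (ω : Finset (Sym2 V)) (x : V) : Prop :=
  ∃ z, z ∉ B ∧ (og ω).Reachable x z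

lemma esc_union {B S : Finset V} {a b : Finset (Sym2 V)} (hb : b ⊆ edgesIn G S)
    (hS : (∀ x ∈ S, ¬ Esc B a x) ∨ (∀ x ∈ S, ¬ Esc B (a ∪ b) x)) (x : V) :
    Esc B (a ∪ b) x ↔ Esc B a x := by
  constructor
  · rintro ⟨z, hz, ⟨r⟩⟩
    induction r with
    | nil => exact ⟨_, hz, Reachable.refl _⟩
    | @cons u v w huv q ih =>
      have hv : Esc B a v := ih hz
      have hv' : Esc B (a ∪ b) v := ⟨w, hz, ⟨q⟩⟩
      have hvS : v ∉ S := fun h => hS.elim (fun hh => hh v h hv) (fun hh => hh v h hv')
      obtain ⟨hm, hne⟩ := og_adj.1 huv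
      have hma : s(u, v) ∈ a := by
        rcases Finset.mem_union.1 hm with h | h
        · exact h
        · exact absurd ((mem_edgesIn G).1 (hb h)).2.2 hvS
      obtain ⟨z', hz', hr⟩ := hv
      exact ⟨z', hz', ((og_adj.2 ⟨hma, hne⟩).reachable).trans hr⟩
  · rintro ⟨z, hz, hr⟩
    exact ⟨z, hz, hr.mono (og_mono subset_union_left)⟩

/-- Vertices of `B` not connected to the outside. -/
noncomputable def sealed (B : Finset V) (ω : Finset (Sym2 V)) : Finset V :=
  B.filter fun x => ¬ Esc B ω x

lemma sealed_union_iff {B S : Finset V} {a b : Finset (Sym2 V)} (hb : b ⊆ edgesIn G S) :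
    sealed B (a ∪ b) = S ↔ sealed B a = S := by
  constructor <;> intro h
  · have h' : ∀ x ∈ S, ¬ Esc B (a ∪ b) x := fun x hx => by
      rw [← h] at hx; exact (mem_filter.1 hx).2
    rw [← h]
    exact filter_congr fun x _ => not_congr (esc_union G hb (Or.inr h') x).symm
  · have h' : ∀ x ∈ S, ¬ Esc B a x := fun x hx => by
      rw [← h] at hx; exact (mem_filter.1 hx).2
    rw [← h]
    exact filter_congr fun x _ => not_congr (esc_union G hb (Or.inl h') x)

/-- Probability that `o` is connected to the outside of `B`. -/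
noncomputable def theta (p : ℝ) (B : Finset V) (o : V) : ℝ :=
  expect p (edgesAt G B) (fun ω => if Esc B ω o then 1 else 0)

lemma theta_deriv_ge {p lam : ℝ} {D : ℕ} {h : V → ℝ} {M Lam : ℝ} (hc : Crit G p lam D h M Lam)
    (hp1 : p < 1) (B : Finset V) {o : V} (ho : o ∈ B) :
    ∃ d, HasDerivAt (fun q => theta G q B o) d p ∧ 1 - theta G p B o ≤ M * d := by
  set E := edgesAt G B with hE
  set f : Finset (Sym2 V) → ℝ := fun ω => if Esc B ω o then 1 else 0 with hf
  refine ⟨_, hasDerivAt_expect p E f, ?_⟩
  set d := ∑ e ∈ E, expect p (E.erase e) (fun ω => f (insert e ω) - f ω) with hd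
  have hp0 := hc.p0
  have hM : 0 ≤ M := zero_le_one.trans ((hc.one_le o).trans (hc.le_M o))
  set g : Finset V → Finset (Sym2 V) → ℝ := fun S ω => if o ∈ S then
    ∑ x ∈ cluster ω S o, (#(G.neighborFinset x \ S) : ℝ) else 0 with hg
  have hpiv : expect p E (fun ω => g (sealed B ω) ω) ≤ (1 - p) * d := by
    rw [hd, deriv_expect_mul]
    refine expect_mono hp0 hc.p1 fun ω hω => ?_
    set S := sealed B ω with hS
    have hterm : ∀ e ∈ E, 0 ≤ if e ∈ ω then 0 else f (insert e ω) - f ω := by
      intro e _
      split_ifs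
      · exact le_rfl
      · simp only [hf]
        by_cases he : Esc B ω o
        · obtain ⟨z, hz, hr⟩ := he
          rw [if_pos ⟨z, hz, hr.mono (og_mono (subset_insert _ _))⟩, if_pos ⟨z, hz, hr⟩]
          norm_num
        · rw [if_neg he]
          split_ifs <;> norm_num
    simp only [hg]
    split_ifs with hoS
    · set P := (cluster ω S o).sigma fun x => G.neighborFinset x \ S with hP
      have hcard : (∑ x ∈ cluster ω S o, (#(G.neighborFinset x \ S) : ℝ)) = (#P : ℝ) := by
        rw [hP, card_sigma, Nat.cast_sum]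
      rw [hcard]
      set T := P.image (fun xy => s(xy.1, xy.2)) with hT
      have hTcard : #T = #P := by
        refine card_image_of_injOn ?_
        rintro ⟨x, y⟩ hxy ⟨x', y'⟩ hxy' he
        simp only [hP, mem_coe, mem_sigma, Finset.mem_sdiff, cluster, mem_filter] at hxy hxy'
        simp only [Sym2.eq_iff] at he
        rcases he with ⟨rfl, rfl⟩ | ⟨rfl, rfl⟩
        · rfl
        · exact absurd hxy'.1.1 hxy.2.2
      rw [← hTcard]
      have hall : ∀ e ∈ T, e ∈ E ∧ e ∉ ω ∧ f (insert e ω) - f ω = 1 := by
        intro e he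
        obtain ⟨⟨x, y⟩, hxy, rfl⟩ := Finset.mem_image.1 he
        simp only [hP, mem_sigma, Finset.mem_sdiff, cluster, mem_filter, mem_neighborFinset]
          at hxy
        obtain ⟨⟨hxS, hr⟩, hadj, hyS⟩ := hxy
        have hxS' := mem_filter.1 hxS
        have hyesc : Esc B ω y := by
          by_cases hyB : y ∈ B
          · by_contra hh
            exact hyS (mem_filter.2 ⟨hyB, hh⟩)
          · exact ⟨y, hyB, Reachable.refl _⟩
        have hnm : s(x, y) ∉ ω := by
          intro hm
          obtain ⟨z, hz, hyz⟩ := hyesc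
          exact hxS'.2 ⟨z, hz, ((og_adj.2 ⟨hm, hadj.ne⟩).reachable).trans hyz⟩
        refine ⟨(mem_edgesAt G).2 ⟨hadj, Or.inl hxS'.1⟩, hnm, ?_⟩
        obtain ⟨z, hz, hyz⟩ := hyesc
        have h1 : Esc B (insert s(x, y) ω) o :=
          ⟨z, hz, ((hr.mono (og_mono (subset_insert _ _))).trans
            (og_adj.2 ⟨mem_insert_self _ _, hadj.ne⟩).reachable).trans
              (hyz.mono (og_mono (subset_insert _ _)))⟩
        simp only [hf]
        rw [if_pos h1, if_neg (mem_filter.1 hoS).2]
        norm_num
      calc ((#T : ℕ) : ℝ) = ∑ _e ∈ T, (1:ℝ) := by simp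
        _ = ∑ e ∈ T, if e ∈ ω then 0 else f (insert e ω) - f ω :=
            sum_congr rfl fun e he => by rw [if_neg (hall e he).2.1, (hall e he).2.2]
        _ ≤ _ := sum_le_sum_of_subset_of_nonneg (fun e he => (hall e he).1)
            fun e he _ => hterm e he
    · exact sum_nonneg hterm
  have hmain : (1 - p) * (1 - theta G p B o) ≤ M * (p * expect p E (fun ω => g (sealed B ω) ω)) := by
    have hrw : ∀ ω, g (sealed B ω) ω
        = ∑ S ∈ B.powerset, if sealed B ω = S then g S ω else 0 := fun ω => by
      rw [sum_ite_eq, if_pos (mem_powerset.2 (show sealed B ω ⊆ B from filter_subset _ _))]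
    have hth : 1 - theta G p B o
        = ∑ S ∈ B.powerset, expect p E (fun ω =>
            if sealed B ω = S then (if o ∈ S then (1:ℝ) else 0) else 0) := by
      rw [← expect_sum, theta, ← hE]
      nth_rw 1 [← expect_const p E (1:ℝ)]
      rw [← expect_sub]
      refine expect_congr fun ω _ => ?_
      rw [sum_ite_eq, if_pos (mem_powerset.2 (show sealed B ω ⊆ B from filter_subset _ _))]
      simp only [sealed, mem_filter, ho, true_and]
      by_cases h : Esc B ω o <;> simp [h]
    simp only [hrw, expect_sum, hth, mul_sum]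
    refine sum_le_sum fun S hS => ?_
    rw [mem_powerset] at hS
    have hsub := edgesIn_subset_edgesAt G hS
    have hdec : E = (E \ edgesIn G S) ∪ edgesIn G S := (Finset.sdiff_union_of_subset hsub).symm
    rw [hdec, expect_union Finset.sdiff_disjoint, expect_union Finset.sdiff_disjoint,
      ← expect_mul_left, ← expect_mul_left, ← expect_mul_left]
    refine expect_mono hp0 hc.p1 fun a _ => ?_
    have hiff : ∀ b, b ⊆ edgesIn G S → (sealed B (a ∪ b) = S ↔ sealed B a = S) :=
      fun b hb => sealed_union_iff G hb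
    by_cases hS' : sealed B a = S ∧ o ∈ S
    · rw [expect_congr (g := fun _ => (1:ℝ)) fun b hb => by
        rw [if_pos ((hiff b hb).2 hS'.1), if_pos hS'.2], expect_const, mul_one]
      refine (phi_ge G hc S hS'.2).trans ?_
      refine mul_le_mul_of_nonneg_left (mul_le_mul_of_nonneg_left
        (expect_mono hp0 hc.p1 fun b hb => ?_) hp0) hM
      rw [if_pos ((hiff b hb).2 hS'.1)]
      simp only [hg]
      rw [if_pos hS'.2]
      refine sum_le_sum_of_subset_of_nonneg ?_ fun _ _ _ => Nat.cast_nonneg _
      intro x hx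
      simp only [cluster, mem_filter] at hx ⊢
      exact ⟨hx.1, hx.2.mono (og_mono subset_union_right)⟩
    · rw [expect_congr (g := fun _ => (0:ℝ)) fun b hb => by
        by_cases h1 : sealed B (a ∪ b) = S
        · rw [if_pos h1, if_neg fun h2 => hS' ⟨(hiff b hb).1 h1, h2⟩]
        · rw [if_neg h1], expect_const, mul_zero]
      refine mul_nonneg hM (mul_nonneg hp0 (expect_nonneg hp0 hc.p1 fun b _ => ?_))
      simp only [hg]
      split_ifs <;> first | exact le_rfl | exact sum_nonneg fun _ _ => Nat.cast_nonneg _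
  have h1 : M * (p * expect p E (fun ω => g (sealed B ω) ω)) ≤ M * (p * ((1 - p) * d)) :=
    mul_le_mul_of_nonneg_left (mul_le_mul_of_nonneg_left hpiv hp0) hM
  have hq0 : 0 < 1 - p := by linarith
  have hd0 : 0 ≤ (1 - p) * d := by
    refine le_trans (expect_nonneg hp0 hc.p1 fun ω _ => ?_) hpiv
    simp only [hg]
    split_ifs <;> first | exact le_rfl | exact sum_nonneg fun _ _ => Nat.cast_nonneg _
  have hd1 : 0 ≤ d := by nlinarith
  have h2 : 1 - theta G p B o ≤ M * (p * d) := by nlinarith
  nlinarith [mul_nonneg hM hd1]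

lemma theta_lower {lam : ℝ} {D : ℕ} {h : V → ℝ} {M Lam a b : ℝ} (hab : a ≤ b) (hb : b < 1)
    (hc : ∀ p ∈ Set.Icc a b, Crit G p lam D h M Lam) (B : Finset V) {o : V} (ho : o ∈ B) :
    1 - Real.exp (-(b - a) / M) ≤ theta G b B o := by
  have hca := hc a ⟨le_rfl, hab⟩
  have hM : 0 < M := lt_of_lt_of_le zero_lt_one ((hca.one_le o).trans (hca.le_M o))
  set F : ℝ → ℝ := fun p => (1 - theta G p B o) * Real.exp ((p - a) / M) with hF
  have hderiv : ∀ p ∈ Set.Icc a b, ∃ d', HasDerivAt F d' p ∧ d' ≤ 0 := by
    intro p hp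
    obtain ⟨d, hd, hle⟩ := theta_deriv_ge G (hc p hp) (lt_of_le_of_lt hp.2 hb) B ho
    refine ⟨_, (hd.const_sub 1).mul ((((hasDerivAt_id p).sub_const a).div_const M).exp), ?_⟩
    simp only [id_eq]
    rw [show -d * Real.exp ((p - a) / M)
        + (1 - theta G p B o) * (Real.exp ((p - a) / M) * (1 / M))
        = Real.exp ((p - a) / M) / M * ((1 - theta G p B o) - M * d) by field_simp; ring]
    exact mul_nonpos_of_nonneg_of_nonpos (by positivity) (by linarith)
  have hanti : AntitoneOn F (Set.Icc a b) := by
    refine antitoneOn_of_deriv_nonpos (convex_Icc a b) ?_ ?_ ?_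
    · intro p hp
      obtain ⟨d', hd', -⟩ := hderiv p hp
      exact hd'.continuousAt.continuousWithinAt
    · intro p hp
      obtain ⟨d', hd', -⟩ := hderiv p (interior_subset hp)
      exact hd'.differentiableAt.differentiableWithinAt
    · intro p hp
      obtain ⟨d', hd', hle⟩ := hderiv p (interior_subset hp)
      rw [hd'.deriv]; exact hle
  have h1 := hanti (Set.left_mem_Icc.2 hab) (Set.right_mem_Icc.2 hab) hab
  have h2 : F a ≤ 1 := by
    simp only [hF, sub_self, zero_div, Real.exp_zero, mul_one]
    have : 0 ≤ theta G a B o :=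
      expect_nonneg hca.p0 hca.p1 fun ω _ => by split_ifs <;> norm_num
    linarith
  have h3 : (1 - theta G b B o) * Real.exp ((b - a) / M) ≤ 1 := h1.trans h2
  rw [neg_div, Real.exp_neg]
  have he := Real.exp_pos ((b - a) / M)
  rw [sub_le_comm, inv_eq_one_div, le_div_iff₀ he]
  linarith

end Vale.Agent.P165
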