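import Vale.Agent.P165.Defs

/-!
A bounded positive eigenfunction of the adjacency operator of a quasi-transitive graph.
-/

namespace Vale.Agent.P165

open SimpleGraph Finset
open scoped Classical

set_option linter.unusedSectionVars false

variable {V : Type*} {G : SimpleGraph V} [G.LocallyFinite]

/-- Sum of `f` over the neighbours. -/
noncomputable def adjOp (G : SimpleGraph V) [G.LocallyFinite] (f : V → ℝ) (x : V) : ℝ :=
  ∑ y ∈ G.neighborFinset x, f y

/-- One step of the lazy operator. -/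
noncomputable def lazyOp (G : SimpleGraph V) [G.LocallyFinite] (f : V → ℝ) (x : V) : ℝ :=
  f x + adjOp G f x

lemma adjOp_comp (f : V → ℝ) (φ : G ≃g G) (hf : ∀ v, f (φ v) = f v) (v : V) :
    adjOp G f (φ v) = adjOp G f v := by
  unfold adjOp
  refine (sum_bij (fun y _ => φ y) ?_ ?_ ?_ fun y _ => (hf y).symm).symm
  · intro y hy; rw [mem_neighborFinset] at hy ⊢; exact φ.map_adj_iff.2 hy
  · intro a _ b _ h; exact φ.injective h
  · intro z hz
    obtain ⟨y, rfl⟩ := φ.surjective z
    rw [mem_neighborFinset, φ.map_adj_iff] at hz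
    exact ⟨y, (mem_neighborFinset G v y).2 hz, rfl⟩

lemma lazy_nonneg (f : V → ℝ) (hf : ∀ x, 0 ≤ f x) (n : ℕ) (x : V) :
    0 ≤ (lazyOp G)^[n] f x := by
  induction n generalizing x with
  | zero => exact hf x
  | succ n ih =>
    rw [Function.iterate_succ_apply']
    exact add_nonneg (ih x) (sum_nonneg fun y _ => ih y)

lemma lazy_mono (f : V → ℝ) (hf : ∀ x, 0 ≤ f x) {a b : ℕ} (hab : a ≤ b) (x : V) :
    (lazyOp G)^[a] f x ≤ (lazyOp G)^[b] f x := by
  induction hab with
  | refl => exact le_rfl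
  | @step m _ ih =>
    rw [Function.iterate_succ_apply']
    refine ih.trans (le_add_of_nonneg_right (sum_nonneg fun y _ => lazy_nonneg f hf m y))

lemma lazy_pos (f : V → ℝ) (hf : ∀ x, 0 ≤ f x) {x w : V} (π : G.Walk x w) (hw : 0 < f w) :
    0 < (lazyOp G)^[π.length] f x := by
  induction π with
  | nil => exact hw
  | @cons a b c hab q ih =>
    rw [Walk.length_cons, Function.iterate_succ_apply']
    refine lt_of_lt_of_le (lt_of_lt_of_le (ih hw) (single_le_sum
      (f := fun y => (lazyOp G)^[q.length] f y) (fun y _ => lazy_nonneg f hf _ y)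
      ((mem_neighborFinset G a b).2 hab))) ?_
    exact le_add_of_nonneg_left (lazy_nonneg f hf _ a)

lemma lazy_sub (t : ℝ) (f : V → ℝ) (n : ℕ) (x : V) :
    (lazyOp G)^[n] (fun y => adjOp G f y - t * f y) x
      = adjOp G ((lazyOp G)^[n] f) x - t * (lazyOp G)^[n] f x := by
  induction n generalizing x with
  | zero => rfl
  | succ n ih =>
    rw [Function.iterate_succ_apply', Function.iterate_succ_apply']
    rw [funext ih]
    generalize (lazyOp G)^[n] f = F
    simp only [lazyOp, adjOp, sum_sub_distrib, ← mul_sum, sum_add_distrib]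
    ring

/-- A bounded eigenfunction with values at least `1`. -/
theorem exists_eigen (hconn : G.Connected) [Nontrivial V] (hq : QuasiTransitive G) :
    ∃ (h : V → ℝ) (M Lam : ℝ), 0 < Lam ∧ (∀ x, 1 ≤ h x) ∧ (∀ x, h x ≤ M) ∧
      (∀ x, ∑ y ∈ G.neighborFinset x, h y = Lam * h x) ∧
      ∀ (φ : G ≃g G) x, h (φ x) = h x := by
  obtain ⟨R, hR⟩ := hq
  let orbitRel : Setoid V :=
    { r := fun v w => ∃ φ : G ≃g G, φ v = w
      iseqv :=
        ⟨fun v => ⟨RelIso.refl _, rfl⟩,
         fun {v w} ⟨φ, h⟩ => ⟨φ.symm, by rw [← h]; exact φ.symm_apply_apply v⟩,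
         fun {u v w} ⟨φ, h⟩ ⟨ψ, h'⟩ => ⟨φ.trans ψ, by rw [RelIso.trans_apply, h, h']⟩⟩ }
  let Q := Quotient orbitRel
  let mk : V → Q := fun v => Quotient.mk orbitRel v
  haveI : Finite Q := Finite.of_surjective (fun r : {x // x ∈ R} => mk r.1) fun q => by
    induction q using Quotient.ind with
    | _ v =>
      obtain ⟨φ, hφ⟩ := hR v
      exact ⟨⟨φ v, hφ⟩, (Quotient.sound (s := orbitRel) (a := v) (b := φ v) ⟨φ, rfl⟩).symm⟩
  haveI : Fintype Q := Fintype.ofFinite Q
  obtain ⟨o⟩ := hconn.nonempty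
  haveI : Nonempty Q := ⟨mk o⟩
  have hinv : ∀ (g : Q → ℝ) (φ : G ≃g G) (v : V), g (mk (φ v)) = g (mk v) := fun g φ v =>
    congrArg g (Quotient.sound (s := orbitRel) ⟨φ, rfl⟩).symm
  have hdescend : ∀ f : V → ℝ, (∀ (φ : G ≃g G) v, f (φ v) = f v) →
      ∃ g : Q → ℝ, ∀ v, g (mk v) = f v := fun f hf =>
    ⟨Quotient.lift f fun a b ⟨φ, h⟩ => by rw [← h, hf], fun v => rfl⟩
  obtain ⟨degQ, hdegQ⟩ := hdescend (fun v => (#(G.neighborFinset v) : ℝ)) fun φ v => by
    have := adjOp_comp (G := G) (fun _ => 1) φ (fun _ => rfl) v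
    simpa [adjOp] using this
  set D : ℝ := ∑ q, |degQ q| with hD
  set K : Set ((Q → ℝ) × ℝ) := (stdSimplex ℝ Q ×ˢ Set.Icc (0:ℝ) D) ∩
    ⋂ v : V, {z | z.2 * z.1 (mk v) ≤ ∑ y ∈ G.neighborFinset v, z.1 (mk y)} with hK
  have hKc : IsCompact K := by
    refine ((isCompact_stdSimplex ℝ Q).prod isCompact_Icc).inter_right (isClosed_iInter fun v => ?_)
    refine isClosed_le ?_ ?_
    · exact continuous_snd.mul ((continuous_apply _).comp continuous_fst)
    · exact continuous_finsetSum _ fun y _ => (continuous_apply _).comp continuous_fst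
  have hKne : K.Nonempty := by
    refine ⟨(Pi.single (mk o) 1, 0), ⟨single_mem_stdSimplex ℝ _, le_rfl,
      sum_nonneg fun q _ => abs_nonneg _⟩, ?_⟩
    simp only [Set.mem_iInter, Set.mem_setOf_eq, zero_mul]
    intro v
    refine sum_nonneg fun y _ => ?_
    exact (single_mem_stdSimplex ℝ (mk o)).1 _
  obtain ⟨⟨g, t⟩, hmem, hmax⟩ := hKc.exists_isMaxOn hKne continuous_snd.continuousOn
  obtain ⟨⟨hgS, ht0, -⟩, hle⟩ := hmem
  simp only [Set.mem_iInter, Set.mem_setOf_eq] at hle
  simp only at hgS ht0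
  set f : V → ℝ := fun v => g (mk v) with hf
  have hf0 : ∀ v, 0 ≤ f v := fun v => hgS.1 _
  have hfpos : ∃ w, 0 < f w := by
    by_contra hno
    simp only [not_exists, not_lt] at hno
    have h0 : ∀ q, g q = 0 := fun q => by
      induction q using Quotient.ind with
      | _ v => exact le_antisymm (hno v) (hf0 v)
    have := hgS.2
    simp [h0] at this
  obtain ⟨w, hw⟩ := hfpos
  have hreach : ∀ v₀ : V, ∃ n : ℕ, ∀ (g' : Q → ℝ), (∀ q, 0 ≤ g' q) → 0 < g' (mk v₀) →
      ∀ v, 0 < (lazyOp G)^[n] (fun u => g' (mk u)) v := by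
    intro v₀
    refine ⟨(univ : Finset {x // x ∈ R}).sup fun r => (Classical.choice (hconn.preconnected r.1 v₀)).length,
      fun g' hg' hpos v => ?_⟩
    obtain ⟨φ, hφ⟩ := hR v
    have hiter : ∀ n, ∀ (ψ : G ≃g G) u, (lazyOp G)^[n] (fun u => g' (mk u)) (ψ u)
        = (lazyOp G)^[n] (fun u => g' (mk u)) u := by
      intro n
      induction n with
      | zero => exact fun ψ u => hinv g' ψ u
      | succ n ih =>
        intro ψ u
        simp only [Function.iterate_succ_apply']
        show (lazyOp G)^[n] (fun u => g' (mk u)) (ψ u)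
          + adjOp G ((lazyOp G)^[n] (fun u => g' (mk u))) (ψ u) = _ + _
        rw [adjOp_comp _ ψ (ih ψ) u, ih ψ u]
    rw [← hiter _ φ v]
    exact lt_of_lt_of_le
      (lazy_pos _ (fun u => hg' _) (Classical.choice (hconn.preconnected (φ v) v₀)) hpos)
      (lazy_mono _ (fun u => hg' _) (le_sup (f := fun r : {x // x ∈ R} =>
        (Classical.choice (hconn.preconnected r.1 v₀)).length) (mem_univ ⟨φ v, hφ⟩)) _)
  obtain ⟨zQ, hzQ⟩ := hdescend (fun v => adjOp G f v - t * f v) fun φ v => by
    rw [adjOp_comp f φ (hinv g φ) v, hf]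
    simp only [hinv g φ v]
  have hz0 : ∀ q, 0 ≤ zQ q := fun q => by
    induction q using Quotient.ind with
    | _ v =>
      have := hle v
      rw [show zQ (Quotient.mk orbitRel v) = _ from hzQ v]
      simp only [adjOp, hf]
      linarith
  have hzero : ∀ v, adjOp G f v = t * f v := by
    by_contra hne
    simp only [not_forall] at hne
    obtain ⟨v₀, hv₀⟩ := hne
    have hv0pos : 0 < zQ (mk v₀) := lt_of_le_of_ne (hz0 _) fun h => hv₀ (by
      rw [hzQ] at h; linarith)
    obtain ⟨n₁, hn₁⟩ := hreach v₀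
    obtain ⟨n₂, hn₂⟩ := hreach w
    set n := max n₁ n₂ with hn
    have hz' : ∀ v, 0 < (lazyOp G)^[n] (fun u => adjOp G f u - t * f u) v := fun v => by
      have h1 := hn₁ zQ hz0 hv0pos v
      simp only [hzQ] at h1
      refine lt_of_lt_of_le h1 (lazy_mono _ (fun u => ?_) (le_max_left _ _) v)
      have := hz0 (mk u)
      rwa [hzQ] at this
    set F := (lazyOp G)^[n] f with hF
    have hFpos : ∀ v, 0 < F v := fun v =>
      lt_of_lt_of_le (hn₂ g hgS.1 hw v) (lazy_mono _ hf0 (le_max_right _ _) v)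
    have hFinv : ∀ (φ : G ≃g G) v, F (φ v) = F v := by
      rw [hF]
      clear hz' hFpos hF F
      induction n with
      | zero => exact fun φ v => hinv g φ v
      | succ n ih =>
        intro φ v
        simp only [Function.iterate_succ_apply']
        show (lazyOp G)^[n] f (φ v) + adjOp G ((lazyOp G)^[n] f) (φ v) = _ + _
        rw [adjOp_comp _ φ (ih φ) v, ih φ v]
    obtain ⟨FQ, hFQ⟩ := hdescend F hFinv
    obtain ⟨GQ, hGQ⟩ := hdescend (fun v => adjOp G F v / F v - t) fun φ v => by
      rw [adjOp_comp F φ (hFinv φ) v, hFinv φ v]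
    obtain ⟨q₀, -, hq₀⟩ := (univ : Finset Q).exists_min_image GQ univ_nonempty
    obtain ⟨v₁, rfl⟩ := Quotient.mk_surjective (s := orbitRel) q₀
    have hε : 0 < GQ (mk v₁) := by
      rw [hGQ, sub_pos, lt_div_iff₀ (hFpos v₁)]
      have := hz' v₁
      rw [lazy_sub, ← hF] at this
      linarith
    set ε := GQ (mk v₁) with hεdef
    set s := ∑ q, FQ q with hs
    have hFQpos : ∀ q, 0 < FQ q := fun q => by
      induction q using Quotient.ind with
      | _ v => rw [show FQ (Quotient.mk orbitRel v) = _ from hFQ v]; exact hFpos v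
    have hs0 : 0 < s := sum_pos (fun q _ => hFQpos q) univ_nonempty
    have hineq : ∀ v, (t + ε) * FQ (mk v) ≤ ∑ y ∈ G.neighborFinset v, FQ (mk y) := fun v => by
      have h1 := hq₀ (mk v) (mem_univ _)
      change GQ (mk v₁) ≤ _ at h1
      rw [← hεdef, hGQ] at h1
      simp only [hFQ]
      have h2 : t + ε ≤ adjOp G F v / F v := by linarith
      exact (le_div_iff₀ (hFpos v)).1 h2
    have hsimp : (fun q => FQ q / s) ∈ stdSimplex ℝ Q :=
      ⟨fun q => (div_pos (hFQpos q) hs0).le, by rw [← sum_div]; exact div_self hs0.ne'⟩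
    have hmemK : ((fun q => FQ q / s), t + ε) ∈ K := by
      refine ⟨⟨hsimp, by linarith, ?_⟩, ?_⟩
      · obtain ⟨qm, -, hqm⟩ := (univ : Finset Q).exists_max_image FQ univ_nonempty
        obtain ⟨vm, rfl⟩ := Quotient.mk_surjective (s := orbitRel) qm
        have h1 : (t + ε) * FQ (mk vm) ≤ D * FQ (mk vm) := by
          refine (hineq vm).trans ?_
          calc ∑ y ∈ G.neighborFinset vm, FQ (mk y)
              ≤ ∑ _y ∈ G.neighborFinset vm, FQ (mk vm) :=
                sum_le_sum fun y _ => hqm _ (mem_univ _)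
            _ = degQ (mk vm) * FQ (mk vm) := by rw [sum_const, nsmul_eq_mul, hdegQ]
            _ ≤ _ := mul_le_mul_of_nonneg_right ((le_abs_self _).trans
                (single_le_sum (f := fun q => |degQ q|) (fun q _ => abs_nonneg _) (mem_univ _)))
                (hFQpos _).le
        exact le_of_mul_le_mul_right h1 (hFQpos _)
      · simp only [Set.mem_iInter, Set.mem_setOf_eq]
        intro v
        rw [← sum_div, mul_div]
        exact div_le_div_of_nonneg_right (hineq v) hs0.le
    have hle' : t + ε ≤ t := hmax hmemK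
    linarith
  obtain ⟨n, hn⟩ := hreach w
  have hiter : ∀ k v, (lazyOp G)^[k] f v = (1 + t) ^ k * f v := by
    intro k
    induction k with
    | zero => intro v; simp
    | succ k ih =>
      intro v
      rw [Function.iterate_succ_apply']
      simp only [lazyOp, adjOp, ih, ← mul_sum]
      rw [show ∑ y ∈ G.neighborFinset v, f y = t * f v from hzero v]
      ring
  have hfp : ∀ v, 0 < f v := fun v => by
    have h1 := hn g hgS.1 hw v
    rw [← hf, hiter] at h1
    exact pos_of_mul_pos_right h1 (pow_nonneg (by linarith) _)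
  have htpos : 0 < t := by
    rcases lt_or_eq_of_le ht0 with h | h
    · exact h
    exfalso
    obtain ⟨u, hu⟩ := hconn.preconnected.exists_adj_of_nontrivial o
    have h1 := hzero o
    rw [← h, zero_mul] at h1
    exact absurd h1 (sum_pos (fun y _ => hfp y) ⟨u, (mem_neighborFinset G o u).2 hu⟩).ne'
  obtain ⟨qmin, -, hmin⟩ := (univ : Finset Q).exists_min_image g univ_nonempty
  obtain ⟨vm, rfl⟩ := Quotient.mk_surjective (s := orbitRel) qmin
  obtain ⟨qmax, -, hmax'⟩ := (univ : Finset Q).exists_max_image g univ_nonempty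
  refine ⟨fun v => f v / f vm, g qmax / f vm, t, htpos, fun x => ?_, fun x => ?_,
    fun x => ?_, fun φ x => congrArg (· / f vm) (hinv g φ x)⟩
  · rw [one_le_div (hfp vm)]; exact hmin (mk x) (mem_univ _)
  · exact div_le_div_of_nonneg_right (hmax' (mk x) (mem_univ _)) (hfp vm).le
  · rw [← sum_div, show ∑ y ∈ G.neighborFinset x, f y = t * f x from hzero x, mul_div]

end Vale.Agent.P165
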