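import Vale.Agent.P165.Main
import Vale.Agent.P165.Cheeger
import Vale.Agent.P165.Perron

/-!
The three consequences of the criterion.
-/

namespace Vale.Agent.P165

open MeasureTheory SimpleGraph Finset
open scoped Classical

set_option linter.unusedSectionVars false

variable {V : Type*} {G : SimpleGraph V}

lemma AdjNorm.mono {a b : ℝ} (h : AdjNorm G a) (hab : a ^ 2 ≤ b ^ 2) : AdjNorm G b :=
  fun T f => (h T f).trans (mul_le_mul_of_nonneg_right hab (sum_nonneg fun _ _ => sq_nonneg _))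

variable [G.LocallyFinite]

lemma ncard_neighbors_diff (A : Finset V) (x : V) :
    {y | G.Adj x y ∧ y ∉ A}.ncard = #(G.neighborFinset x \ A) := by
  rw [← Set.ncard_coe_finset]
  congr 1
  ext y
  simp

theorem gap_regular (hconn : G.Connected) [Infinite V] (hq : QuasiTransitive G) {d : ℕ}
    (hreg : G.IsRegularOfDegree d) {ρ : ℝ} (hρ0 : 0 ≤ ρ) (hρ1 : ρ < 1)
    (hN : AdjNorm G (ρ * d)) (hbig : 400 ≤ (1 - ρ) ^ 3 * d) : pc G < pu G := by
  haveI := countable_of_connected hconn
  have hd : (400 : ℝ) ≤ d := by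
    have h1 : (1 - ρ) ^ 3 ≤ 1 := pow_le_one₀ (by linarith) (by linarith)
    nlinarith [Nat.cast_nonneg (α := ℝ) d]
  set η := min (1 - ρ) (1 / 2) with hη
  have hη0 : 0 < η := lt_min (by linarith) (by norm_num)
  have hη2 : η ≤ 1 / 2 := min_le_right _ _
  have hcard : ∀ x, #(G.neighborFinset x) = d := fun x => by
    rw [card_neighborFinset_eq_degree]; exact hreg x
  refine pc_lt_pu_of_gap hconn hq (D := d) (h := fun _ => 1) (M := 1) (Lam := d) hη0 hη2
    (fun x => (hcard x).le) (fun _ => le_rfl) (fun _ => le_rfl) (fun x => ?_) (by linarith) ?_ ?_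
  · simp only [sum_const, hcard, nsmul_eq_mul, mul_one, le_refl]
  · refine hN.mono (pow_le_pow_left₀ (by positivity) ?_ 2)
    exact mul_le_mul_of_nonneg_right (by linarith [min_le_left (1 - ρ) (1 / 2 : ℝ)])
      (Nat.cast_nonneg _)
  · have hd0 : (0:ℝ) ≤ d := Nat.cast_nonneg _
    have h50 : 50 ≤ η ^ 3 * d := by
      rcases le_or_gt (1 - ρ) (1 / 2) with hle | hgt
      · rw [hη, min_eq_left hle]; linarith
      · rw [hη, min_eq_right hgt.le]; linarith
    nlinarith

theorem gap_expansion (hconn : G.Connected) [Infinite V] (hq : QuasiTransitive G) {d : ℕ}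
    (hreg : G.IsRegularOfDegree d) {c : ℝ} (hc0 : 0 < c)
    (hexp : ∀ A : Finset V, c * d * #A ≤ ∑ x ∈ A, ({y | G.Adj x y ∧ y ∉ A}.ncard : ℝ))
    (hbig : 4000 ≤ c ^ 6 * d) : pc G < pu G := by
  obtain ⟨o⟩ := hconn.nonempty
  have hd : 0 < (d:ℝ) := by
    rcases Nat.eq_zero_or_pos d with h | h
    · subst h; norm_num at hbig
    · exact_mod_cast h
  have hcard : ∀ x, #(G.neighborFinset x) = d := fun x => by
    rw [card_neighborFinset_eq_degree]; exact hreg x
  have hc1 : c ≤ 1 := by
    have h1 := hexp {o}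
    simp only [ncard_neighbors_diff, sum_singleton, card_singleton, Nat.cast_one, mul_one] at h1
    have h2 : (#(G.neighborFinset o \ {o}) : ℝ) ≤ d := by
      exact_mod_cast (card_le_card sdiff_subset).trans (hcard o).le
    nlinarith
  set c' := 99 / 100 * c with hc'
  have hN := adjNorm_of_iso (G := G) (h := fun _ => 1) (Lam := (d:ℝ)) (c := c')
    (fun _ => one_pos) hd (by positivity) (by rw [hc']; linarith)
    (fun x => by simp [hcard x]) (fun R => by
      have h1 := hexp R
      simp only [ncard_neighbors_diff] at h1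
      simp only [one_pow, mul_one, sum_const, nsmul_eq_mul]
      have h2 : 0 ≤ c * (d * #R) := by positivity
      rw [hc']
      nlinarith)
  have hcs : c' ^ 2 ≤ 1 := by rw [hc']; nlinarith
  set s := Real.sqrt (1 - c' ^ 2) with hs
  have hs0 : 0 ≤ s := Real.sqrt_nonneg _
  have hs2 : s ^ 2 = 1 - c' ^ 2 := Real.sq_sqrt (by linarith)
  have hc'2 : 0 < c' ^ 2 := by rw [hc']; positivity
  have hs1 : s < 1 := by nlinarith
  have hgap : c' ^ 2 / 2 ≤ 1 - s := by nlinarith [sq_nonneg (1 - s)]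
  refine gap_regular hconn hq hreg hs0 hs1 hN ?_
  calc (400:ℝ) ≤ (99 / 100) ^ 6 / 8 * (c ^ 6 * d) := by nlinarith
    _ = (c' ^ 2 / 2) ^ 3 * d := by rw [hc']; ring
    _ ≤ _ := mul_le_mul_of_nonneg_right (pow_le_pow_left₀ (by positivity) hgap 3) hd.le

lemma neighbor_boundary_le (hG : Nonamenable G) :
    ∃ κ : ℝ, 0 < κ ∧ ∀ A : Finset V,
      κ * #A ≤ ∑ x ∈ A, (#(G.neighborFinset x \ A) : ℝ) := by
  obtain ⟨κ, hκ, h⟩ := hG
  refine ⟨κ, hκ, fun A => ?_⟩
  rcases A.eq_empty_or_nonempty with rfl | hA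
  · simp
  refine (h A hA).trans ?_
  have hset : {v : V | v ∉ A ∧ ∃ a ∈ A, G.Adj a v}
      = ↑(A.biUnion fun x => G.neighborFinset x \ A) := by
    ext v; simp only [Set.mem_setOf_eq, coe_biUnion, Set.mem_iUnion, Finset.mem_coe,
      Finset.mem_sdiff, mem_neighborFinset, exists_prop]
    exact ⟨fun ⟨h1, a, ha, hadj⟩ => ⟨a, ha, hadj, h1⟩, fun ⟨a, ha, hadj, h1⟩ => ⟨h1, a, ha, hadj⟩⟩
  rw [hset, Set.ncard_coe_finset]
  exact_mod_cast card_biUnion_le

theorem blowUp_gap (hconn : G.Connected) [Infinite V] (hq : QuasiTransitive G)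
    (hna : Nonamenable G) :
    ∃ m₀ : ℕ, ∀ m ≥ m₀, pc (G.comap (Prod.fst : V × Fin m → V))
      < pu (G.comap (Prod.fst : V × Fin m → V)) := by
  haveI : Nontrivial V := inferInstance
  obtain ⟨h, M, Lam, hLam, hone, hle, heig, -⟩ := exists_eigen hconn hq
  obtain ⟨o⟩ := hconn.nonempty
  have hM : 1 ≤ M := (hone o).trans (hle o)
  obtain ⟨κ, hκ, hbd⟩ := neighbor_boundary_le hna
  set c := min (κ / (Lam * M ^ 2)) (1 / 2) with hc
  have hc0 : 0 < c := lt_min (by positivity) (by norm_num)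
  have hc1 : c < 1 := lt_of_le_of_lt (min_le_right _ _) (by norm_num)
  have hN := adjNorm_of_iso (G := G) (h := h) (Lam := Lam) (c := c)
    (fun x => lt_of_lt_of_le one_pos (hone x)) hLam hc0 hc1 heig (fun R => by
      have h1 : ∑ x ∈ R, Lam * h x ^ 2 ≤ Lam * M ^ 2 * #R := by
        calc ∑ x ∈ R, Lam * h x ^ 2 ≤ ∑ _x ∈ R, Lam * M ^ 2 := by
              refine sum_le_sum fun x _ => mul_le_mul_of_nonneg_left ?_ hLam.le
              exact pow_le_pow_left₀ (zero_le_one.trans (hone x)) (hle x) 2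
          _ = _ := by rw [sum_const, nsmul_eq_mul]; ring
      calc c * ∑ x ∈ R, Lam * h x ^ 2 ≤ κ / (Lam * M ^ 2) * (Lam * M ^ 2 * #R) :=
            mul_le_mul (min_le_left _ _) h1
              (sum_nonneg fun x _ => by positivity) (by positivity)
        _ = κ * #R := by field_simp
        _ ≤ _ := hbd R
        _ ≤ _ := by
            refine sum_le_sum fun x _ => ?_
            rw [← nsmul_one, ← sum_const]
            exact sum_le_sum fun y _ => one_le_mul_of_one_le_of_one_le (hone x) (hone y))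
  set s := Real.sqrt (1 - c ^ 2) with hs
  have hs0 : 0 ≤ s := Real.sqrt_nonneg _
  have hs2 : s ^ 2 = 1 - c ^ 2 := Real.sq_sqrt (by nlinarith)
  have hs1 : s < 1 := by nlinarith
  set η := min (1 - s) (1 / 2) with hη
  have hη0 : 0 < η := lt_min (by linarith) (by norm_num)
  obtain ⟨R, hR⟩ := hq
  set D := R.sup (fun r => #(G.neighborFinset r)) with hD
  have hdeg : ∀ x, #(G.neighborFinset x) ≤ D := fun x => by
    obtain ⟨φ, hφ⟩ := hR x
    have h1 : #(G.neighborFinset x) = #(G.neighborFinset (φ x)) := by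
      rw [card_neighborFinset_eq_degree, card_neighborFinset_eq_degree]
      exact (φ.degree_eq x).symm
    rw [h1]
    exact le_sup (f := fun r => #(G.neighborFinset r)) hφ
  obtain ⟨m₀, hm₀⟩ := exists_nat_ge (max (50 * M * D / (η ^ 3 * Lam ^ 2)) (max (2 / Lam) 1))
  refine ⟨m₀, fun m hm => ?_⟩
  have hmR : (m₀:ℝ) ≤ m := Nat.cast_le.2 hm
  simp only [max_le_iff] at hm₀
  obtain ⟨hmA, hmB, hmC⟩ := hm₀
  have hm1 : 1 ≤ m := by exact_mod_cast hmC.trans hmR
  haveI : Nonempty (Fin m) := ⟨⟨0, hm1⟩⟩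
  haveI : Infinite (V × Fin m) := inferInstance
  haveI := countable_of_connected hconn
  set H := G.comap (Prod.fst : V × Fin m → V) with hH
  letI : H.LocallyFinite := fun z =>
    Fintype.ofFinset (G.neighborFinset z.1 ×ˢ (univ : Finset (Fin m)))
      (fun y => by simp [hH])
  have hnb : ∀ z, H.neighborFinset z = G.neighborFinset z.1 ×ˢ (univ : Finset (Fin m)) :=
    fun z => by ext y; simp [hH]
  have hHconn : H.Connected := by
    refine ⟨fun a b => ?_⟩
    have key : ∀ {u v : V} (π : G.Walk u v) (i j : Fin m), 0 < π.length →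
        H.Reachable (u, i) (v, j) := by
      intro u v π
      induction π with
      | nil => intro i j h; simp at h
      | @cons a b c hab q ih =>
        intro i j _
        by_cases hq0 : q.length = 0
        · cases Walk.eq_of_length_eq_zero hq0
          exact Adj.reachable (G := H) (by simpa [hH] using hab)
        · exact (Adj.reachable (G := H) (v := (b, i)) (by simpa [hH] using hab)).trans
            (ih i j (Nat.pos_of_ne_zero hq0))
    obtain ⟨u, hu⟩ := hconn.preconnected.exists_adj_of_nontrivial a.1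
    obtain ⟨π⟩ := hconn.preconnected u b.1
    exact key (Walk.cons hu π) a.2 b.2 (by simp)
  have hHq : QuasiTransitive H := by
    refine ⟨R ×ˢ univ, fun z => ?_⟩
    obtain ⟨φ, hφ⟩ := hR z.1
    refine ⟨⟨φ.toEquiv.prodCongr (Equiv.refl _), ?_⟩, ?_⟩
    · intro a b; simp [hH, φ.map_adj_iff]
    · simp [hφ]
  refine pc_lt_pu_of_gap hHconn hHq (h := fun z => h z.1) (M := M) (Lam := (m:ℝ) * Lam)
    (D := D * m) hη0 (min_le_right _ _) (fun z => ?_) (fun z => hone z.1) (fun z => hle z.1)
    (fun z => ?_) ?_ ?_ ?_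
  · rw [hnb, card_product, card_univ, Fintype.card_fin]
    exact Nat.mul_le_mul_right _ (hdeg _)
  · rw [hnb, sum_product]
    simp only [sum_const, card_univ, Fintype.card_fin, nsmul_eq_mul, ← mul_sum, heig]
    exact le_of_eq (by ring)
  · exact (div_le_iff₀ hLam).1 (hmB.trans hmR)
  · intro T f
    set U := T.image Prod.fst with hU
    set F : V → ℝ := fun v => ∑ z ∈ T.filter (fun z => z.1 = v), f z with hF
    have hfib : ∀ v, (#(T.filter fun z => z.1 = v) : ℝ) ≤ m := fun v => by
      have h1 : #(T.filter fun z => z.1 = v) ≤ #(univ : Finset (Fin m)) := by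
        refine card_le_card_of_injOn Prod.snd (fun z _ => mem_univ _) ?_
        intro a ha b hb hab
        exact Prod.ext ((mem_filter.1 ha).2.trans (mem_filter.1 hb).2.symm) hab
      rw [card_univ, Fintype.card_fin] at h1
      exact_mod_cast h1
    have hmap : ∀ z ∈ T, z.1 ∈ U := fun z hz => Finset.mem_image_of_mem _ hz
    have hin : ∀ z : V × Fin m, (∑ w ∈ T, if H.Adj z w then f w else 0)
        = ∑ v ∈ U, if G.Adj z.1 v then F v else 0 := by
      intro z
      rw [← sum_fiberwise_of_maps_to hmap]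
      refine sum_congr rfl fun v _ => ?_
      split_ifs with hv
      · exact sum_congr rfl fun w hw => if_pos (by simpa [hH, (mem_filter.1 hw).2] using hv)
      · exact sum_eq_zero fun w hw => if_neg (by simpa [hH, (mem_filter.1 hw).2] using hv)
    refine le_of_eq_of_le (b := ∑ z ∈ T, (∑ v ∈ U, if G.Adj z.1 v then F v else 0) ^ 2)
      (sum_congr rfl fun z _ => ?_) ?_
    · rw [← hin z]
      congr 1
    rw [← sum_fiberwise_of_maps_to hmap]
    calc ∑ v ∈ U, ∑ z ∈ T.filter (fun z => z.1 = v),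
          (∑ v' ∈ U, if G.Adj z.1 v' then F v' else 0) ^ 2
        ≤ ∑ v ∈ U, (m:ℝ) * (∑ v' ∈ U, if G.Adj v v' then F v' else 0) ^ 2 := by
          refine sum_le_sum fun v _ => ?_
          rw [sum_congr rfl (fun z hz => by rw [(mem_filter.1 hz).2]), sum_const, nsmul_eq_mul]
          exact mul_le_mul_of_nonneg_right (hfib v) (sq_nonneg _)
      _ ≤ (m:ℝ) * ((s * Lam) ^ 2 * ∑ v ∈ U, F v ^ 2) := by
          rw [← mul_sum]
          exact mul_le_mul_of_nonneg_left (hN U F) (Nat.cast_nonneg _)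
      _ ≤ (m:ℝ) * ((s * Lam) ^ 2 *
            ∑ v ∈ U, (m:ℝ) * ∑ z ∈ T.filter (fun z => z.1 = v), f z ^ 2) := by
          refine mul_le_mul_of_nonneg_left (mul_le_mul_of_nonneg_left
            (sum_le_sum fun v _ => ?_) (sq_nonneg _)) (Nat.cast_nonneg _)
          exact sq_sum_le_card_mul_sum_sq.trans
            (mul_le_mul_of_nonneg_right (hfib v) (sum_nonneg fun z _ => sq_nonneg _))
      _ = (s * (m * Lam)) ^ 2 * ∑ z ∈ T, f z ^ 2 := by
          rw [← mul_sum, sum_fiberwise_of_maps_to hmap]; ring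
      _ ≤ _ := by
          refine mul_le_mul_of_nonneg_right (pow_le_pow_left₀ (by positivity) ?_ 2)
            (sum_nonneg fun _ _ => sq_nonneg _)
          exact mul_le_mul_of_nonneg_right (by linarith [min_le_left (1 - s) (1 / 2 : ℝ)])
            (by positivity)
  · have h1 := (div_le_iff₀ (by positivity)).1 (hmA.trans hmR)
    push_cast
    calc 50 * M * ((D:ℝ) * m) = (50 * M * D) * m := by ring
      _ ≤ ((m:ℝ) * (η ^ 3 * Lam ^ 2)) * m := mul_le_mul_of_nonneg_right h1 (Nat.cast_nonneg _)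
      _ = _ := by ring

end Vale.Agent.P165
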