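import Vale.Agent.P165.Measure

/-!
The general criterion for `p_c < p_u`.
-/

namespace Vale.Agent.P165

open MeasureTheory ProbabilityTheory SimpleGraph Finset
open scoped Classical ENNReal

set_option linter.unusedSectionVars false

variable {V : Type*} {G : SimpleGraph V}

lemma countable_of_connected [G.LocallyFinite] (hconn : G.Connected) : Countable V := by
  obtain ⟨o⟩ := hconn.nonempty
  have hcov : (Set.univ : Set V) ⊆ ⋃ n, (nbhd G {o} n : Set V) := by
    intro v _
    obtain ⟨π⟩ := hconn.preconnected v o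
    refine Set.mem_iUnion.2 ⟨π.length, toSet_support G _ _ ?_⟩
    simp only [toSet, sum_singleton, ne_eq, Nat.cast_eq_zero, nWalks]
    exact Finset.card_ne_zero.2 ⟨π, mem_finsetWalkLength_iff.2 rfl⟩
  exact Set.countable_univ_iff.1
    ((Set.countable_iUnion fun n => (nbhd G {o} n).countable_toSet).mono hcov)

lemma nbhd_mono [G.LocallyFinite] (U : Finset V) {a b : ℕ} (h : a ≤ b) :
    nbhd G U a ⊆ nbhd G U b := by
  induction h with
  | refl => exact subset_rfl
  | step _ ih => exact ih.trans subset_union_left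

/-- The edge map of an automorphism. -/
def edgeEquiv (φ : G ≃g G) : Sym2 V ≃ Sym2 V where
  toFun := Sym2.map φ
  invFun := Sym2.map φ.symm
  left_inv e := by
    induction e using Sym2.ind with
    | h x y => simp
  right_inv e := by
    induction e using Sym2.ind with
    | h x y => simp

lemma edgeEquiv_mem (φ : G ≃g G) (e : Sym2 V) :
    edgeEquiv φ e ∈ G.edgeSet ↔ e ∈ G.edgeSet := by
  induction e using Sym2.ind with
  | h x y => exact φ.map_adj_iff

lemma percMeasure_map (p : unitInterval) (φ : G ≃g G) :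
    (percMeasure G p).map (fun ω => {e | (edgeEquiv φ).symm e ∈ ω}) = percMeasure G p := by
  set μ : Sym2 V → Measure Prop := fun i =>
    unitInterval.toNNReal p • Measure.dirac (i ∈ G.edgeSet)
      + unitInterval.toNNReal (unitInterval.symm p) • Measure.dirac False with hμ
  haveI : ∀ i, IsProbabilityMeasure (μ i) := fun i => by
    constructor
    simp [hμ, ← ENNReal.coe_add]
  have h1 := Measure.infinitePi_map_piCongrLeft (μ := μ) (edgeEquiv φ)
  have h2 : (fun i => μ (edgeEquiv φ i)) = μ := by
    funext i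
    simp only [hμ, propext (edgeEquiv_mem φ i)]
  rw [h2] at h1
  have hpc : ∀ q : Sym2 V → Prop,
      (MeasurableEquiv.piCongrLeft (fun _ => Prop) (edgeEquiv φ)) q
        = fun e => q ((edgeEquiv φ).symm e) := by
    intro q
    funext e
    obtain ⟨i, rfl⟩ := (edgeEquiv φ).surjective e
    rw [MeasurableEquiv.coe_piCongrLeft, Equiv.piCongrLeft_apply_apply, Equiv.symm_apply_apply]
  have hm : Measurable (fun q : Sym2 V → Prop => {i | q i}) :=
    MeasurableEquiv.setOfPred.measurable
  have hm2 : Measurable (fun ω : Set (Sym2 V) => {e | (edgeEquiv φ).symm e ∈ ω}) :=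
    hm.comp (measurable_pi_lambda _ fun e => measurable_set_mem ((edgeEquiv φ).symm e))
  rw [percMeasure, setBernoulli_eq_map, Measure.map_map hm2 hm, ← hμ]
  conv_rhs => rw [← h1, Measure.map_map hm (MeasurableEquiv.measurable _)]
  congr 1
  funext q
  simp only [Function.comp_apply, hpc, Set.mem_setOf_eq]

/-- An automorphism maps open clusters to open clusters. -/
def openIso (φ : G ≃g G) (ω : Set (Sym2 V)) :
    openGraph G ω ≃g openGraph G {e | (edgeEquiv φ).symm e ∈ ω} where
  toEquiv := φ.toEquiv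
  map_rel_iff' := by
    intro a b
    have h1 : (edgeEquiv φ).symm s(φ a, φ b) = s(a, b) := by simp [edgeEquiv]
    simp only [openGraph, fromEdgeSet_adj, Set.mem_inter_iff, Set.mem_setOf_eq, mem_edgeSet,
      RelIso.coe_fn_toEquiv, h1, φ.map_adj_iff, ne_eq, EmbeddingLike.apply_eq_iff_eq]

variable [G.LocallyFinite] [Countable V]

lemma infAt_invariant (p : unitInterval) (φ : G ≃g G) (v : V) :
    (percMeasure G p).real (infAt G (φ v)) = (percMeasure G p).real (infAt G v) := by
  have hm2 : Measurable (fun ω : Set (Sym2 V) => {e | (edgeEquiv φ).symm e ∈ ω}) :=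
    (MeasurableEquiv.setOfPred.measurable).comp
      (measurable_pi_lambda _ fun e => measurable_set_mem ((edgeEquiv φ).symm e))
  conv_lhs => rw [← percMeasure_map p φ, measureReal_def,
    Measure.map_apply hm2 (measurableSet_infAt _), ← measureReal_def]
  congr 1
  ext ω
  simp only [infAt, Set.mem_preimage, Set.mem_setOf_eq]
  have hsupp : ((openGraph G {e | (edgeEquiv φ).symm e ∈ ω}).connectedComponentMk (φ v)).supp
      = φ '' ((openGraph G ω).connectedComponentMk v).supp := by
    ext z
    obtain ⟨u, rfl⟩ := φ.surjective z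
    rw [φ.injective.mem_set_image, ConnectedComponent.mem_supp_iff,
      ConnectedComponent.mem_supp_iff, ConnectedComponent.eq, ConnectedComponent.eq]
    exact (openIso φ ω).reachable_iff
  rw [hsupp, Set.infinite_image_iff φ.injective.injOn]

lemma uniqueCluster_subset : uniqueCluster G ⊆ ⋃ o : V, infAt G o := by
  rintro ω ⟨C, hC, -⟩
  obtain ⟨o, rfl⟩ := C.exists_rep
  exact Set.mem_iUnion.2 ⟨o, hC⟩

lemma pair_le_conn (p : unitInterval) (hU : percMeasure G p (uniqueCluster G) = 1) (x y : V) :
    (percMeasure G p).real (infAt G x ∩ infAt G y)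
      ≤ (percMeasure G p).real (connEvent G x y) := by
  set M := (infAt G x ∩ infAt G y) \ connEvent G x y with hM
  have hMm : MeasurableSet M :=
    ((measurableSet_infAt x).inter (measurableSet_infAt y)).diff (measurableSet_connEvent x y)
  have hsub : uniqueCluster G ⊆ Mᶜ := by
    intro ω hω hωM
    obtain ⟨⟨hx, hy⟩, hn⟩ := hωM
    obtain ⟨C, -, huniq⟩ := hω
    exact hn (ConnectedComponent.exact ((huniq _ hx).trans (huniq _ hy).symm))
  have h1 : (1 : ℝ≥0∞) ≤ percMeasure G p Mᶜ := hU ▸ measure_mono hsub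
  have h2 : percMeasure G p M = 0 :=
    (prob_compl_eq_one_iff hMm).1 (le_antisymm prob_le_one h1)
  calc (percMeasure G p).real (infAt G x ∩ infAt G y)
      ≤ (percMeasure G p).real (M ∪ connEvent G x y) :=
        measureReal_mono fun ω h => by
          by_cases hc : ω ∈ connEvent G x y
          · exact Or.inr hc
          · exact Or.inl ⟨h, hc⟩
    _ ≤ (percMeasure G p).real M + (percMeasure G p).real (connEvent G x y) :=
        measureReal_union_le _ _
    _ = _ := by rw [measureReal_def, h2]; simp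

lemma exists_far [Infinite V] (R m : ℕ) : ∃ x : ℕ → V, ∀ i j, i < j → j < m → ∀ n < R,
    nWalks G n (x j) (x i) = 0 := by
  induction m with
  | zero => exact ⟨fun _ => Classical.arbitrary V, fun i j _ h => absurd h (by omega)⟩
  | succ m ih =>
    obtain ⟨x, hx⟩ := ih
    obtain ⟨z, hz⟩ := Infinite.exists_notMem_finset ((range m).biUnion fun i => nbhd G {x i} R)
    refine ⟨fun k => if k = m then z else x k, fun i j hij hj n hn => ?_⟩
    have him : i ≠ m := by omega
    simp only [him, if_false]
    by_cases hjm : j = m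
    · rw [if_pos hjm]
      by_contra hne
      refine hz (mem_biUnion.2 ⟨i, mem_range.2 (by omega), nbhd_mono _ hn.le ?_⟩)
      refine toSet_support G n {x i} ?_
      simp only [toSet, sum_singleton, ne_eq, Nat.cast_eq_zero]
      exact hne
    · rw [if_neg hjm]
      exact hx i j hij (by omega) n hn

lemma not_unique (hconn : G.Connected) [Infinite V] (hq : QuasiTransitive G) {lam : ℝ}
    (hN : AdjNorm G lam) (hlam : 0 ≤ lam) (p : unitInterval) (hr : (p : ℝ) * lam < 1) :
    percMeasure G p (uniqueCluster G) ≠ 1 := by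
  intro hU
  set μ := percMeasure G p with hμ
  haveI : IsProbabilityMeasure μ := percMeasure_isProbability G p
  have hex : ∃ o, 0 < μ.real (infAt G o) := by
    by_contra hno
    simp only [not_exists, not_lt] at hno
    have h0 : μ (⋃ o, infAt G o) = 0 := by
      refine measure_iUnion_null fun o => ?_
      have := le_antisymm (hno o) measureReal_nonneg
      rwa [measureReal_def, ENNReal.toReal_eq_zero_iff, or_iff_left (measure_ne_top _ _)] at this
    have h2 : μ (uniqueCluster G) = 0 := measure_mono_null uniqueCluster_subset h0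
    rw [hU] at h2
    exact one_ne_zero h2
  obtain ⟨o, ho⟩ := hex
  have hp : 0 < (p : ℝ) := by
    rcases lt_or_eq_of_le p.2.1 with h | h
    · exact h
    exfalso
    obtain ⟨y, hy⟩ : ∃ y, y ≠ o := exists_ne o
    have hzero : ∀ y, y ≠ o → μ (connEvent G o y) = 0 := by
      intro y hy
      have h1 := real_connEvent_le hN hlam p hr 1 o y fun n hn => by
        obtain rfl : n = 0 := by omega
        rw [nWalks_zero, if_neg hy.symm]
      rw [← h] at h1
      simp at h1
      have h2 := le_antisymm h1 measureReal_nonneg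
      rwa [measureReal_def, ENNReal.toReal_eq_zero_iff, or_iff_left (measure_ne_top _ _)] at h2
    have h3 : μ (infAt G o) = 0 := by
      refine measure_mono_null (t := ⋃ y : {y // y ≠ o}, connEvent G o y) ?_
        (measure_iUnion_null fun y => hzero y.1 y.2)
      intro ω hω
      obtain ⟨z, hz, hzo⟩ := hω.exists_notMem_finset {o}
      exact Set.mem_iUnion.2 ⟨⟨z, by simpa using hzo⟩, (ConnectedComponent.exact hz).symm⟩
    rw [measureReal_def, h3] at ho
    simp at ho
  have hpos : ∀ v, 0 < μ.real (infAt G v) := fun v => by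
    obtain ⟨π⟩ := hconn.preconnected v o
    exact lt_of_lt_of_le (mul_pos (pow_pos hp _) ho) (infAt_transport p π)
  obtain ⟨Rs, hRs⟩ := hq
  have hRne : Rs.Nonempty := by
    obtain ⟨φ, hφ⟩ := hRs o
    exact ⟨_, hφ⟩
  obtain ⟨a, -, ha⟩ := Rs.exists_min_image (fun a => μ.real (infAt G a)) hRne
  set θ := μ.real (infAt G a) with hθ
  have hθ0 : 0 < θ := hpos a
  have hall : ∀ v, θ ≤ μ.real (infAt G v) := fun v => by
    obtain ⟨φ, hφ⟩ := hRs v
    exact (ha _ hφ).trans (le_of_eq (infAt_invariant p φ v))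
  obtain ⟨m, hm⟩ := exists_nat_gt (2 / θ)
  have hm0 : (0:ℝ) < m := lt_trans (by positivity) hm
  set r := (p : ℝ) * lam with hrdef
  have hr0 : 0 ≤ r := mul_nonneg p.2.1 hlam
  have h1r : 0 < 1 - r := by linarith
  obtain ⟨R, hR⟩ : ∃ R : ℕ, r ^ R < θ / (2 * m) * (1 - r) :=
    exists_pow_lt_of_lt_one (by positivity) hr
  obtain ⟨x, hx⟩ := exists_far (G := G) R m
  set δ := r ^ R / (1 - r) with hδ
  have hδ0 : 0 ≤ δ := div_nonneg (pow_nonneg hr0 _) h1r.le
  have hδle : δ < θ / (2 * m) := by rw [hδ, div_lt_iff₀ h1r]; exact hR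
  have hb : ∀ k ≤ m, (k : ℝ) * θ - (k : ℝ) * k * δ
      ≤ μ.real (⋃ i ∈ range k, infAt G (x i)) := by
    intro k
    induction k with
    | zero => intro _; simp
    | succ k ih =>
      intro hk
      set A := ⋃ i ∈ range k, infAt G (x i) with hA
      have hsplit : (⋃ i ∈ range (k + 1), infAt G (x i)) = A ∪ infAt G (x k) := by
        rw [hA, range_add_one, Finset.set_biUnion_insert, Set.union_comm]
      have h1 := measureReal_union_add_inter (μ := μ) (s := A) (measurableSet_infAt (G := G) (x k))
        (measure_ne_top μ A) (measure_ne_top μ _)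
      have h2 : μ.real (A ∩ infAt G (x k)) ≤ k * δ := by
        rw [hA, Set.iUnion₂_inter]
        refine (measureReal_biUnion_finset_le _ _).trans ?_
        calc ∑ i ∈ range k, μ.real (infAt G (x i) ∩ infAt G (x k))
            ≤ ∑ _i ∈ range k, δ := by
              refine sum_le_sum fun i hi => ?_
              rw [Set.inter_comm]
              refine (pair_le_conn p hU _ _).trans ?_
              exact real_connEvent_le hN hlam p hr R _ _
                fun n hn => hx i k (mem_range.1 hi) (by omega) n hn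
          _ = _ := by simp
      have h3 := ih (by omega)
      have h4 := hall (x k)
      rw [hsplit]
      have hk0 : (0:ℝ) ≤ (k : ℝ) := Nat.cast_nonneg _
      push_cast
      nlinarith
  have h1 := (hb m le_rfl).trans measureReal_le_one
  have h2 : 2 < (m:ℝ) * θ := (div_lt_iff₀ hθ0).1 hm
  have h3 : (m : ℝ) * m * δ ≤ m * θ / 2 := by
    calc (m : ℝ) * m * δ ≤ m * m * (θ / (2 * m)) :=
          mul_le_mul_of_nonneg_left hδle.le (by positivity)
      _ = _ := by field_simp
  linarith

lemma unique_at_one (hconn : G.Connected) [Infinite V] :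
    percMeasure G 1 (uniqueCluster G) = 1 := by
  rw [percMeasure, setBernoulli_one]
  refine Measure.dirac_apply_of_mem ?_
  have hG : openGraph G G.edgeSet = G := by rw [openGraph, Set.inter_self, fromEdgeSet_edgeSet]
  show ∃! C : (openGraph G G.edgeSet).ConnectedComponent, C.supp.Infinite
  rw [hG]
  obtain ⟨o⟩ := hconn.nonempty
  refine ⟨G.connectedComponentMk o, ?_, fun C _ => ?_⟩
  · have : (G.connectedComponentMk o).supp = Set.univ :=
      Set.eq_univ_of_forall fun v => ConnectedComponent.sound (hconn.preconnected v o)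
    show (G.connectedComponentMk o).supp.Infinite
    rw [this]
    exact Set.infinite_univ
  · obtain ⟨v, rfl⟩ := C.exists_rep
    exact ConnectedComponent.sound (hconn.preconnected v o)

theorem pc_lt_pu_of_crit (hconn : G.Connected) [Infinite V] (hq : QuasiTransitive G)
    {lam : ℝ} {D : ℕ} {h : V → ℝ} {M Lam a b : ℝ} (hab : a < b) (hb : b < 1)
    (hlam : 0 < lam) (hblam : b * lam < 1)
    (hc : ∀ p ∈ Set.Icc a b, Crit G p lam D h M Lam) : pc G < pu G := by
  have hca := hc a (Set.left_mem_Icc.2 hab.le)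
  have hb0 : 0 ≤ b := hca.p0.trans hab.le
  obtain ⟨o⟩ := hconn.nonempty
  have hM : 0 < M := lt_of_lt_of_le zero_lt_one ((hca.one_le o).trans (hca.le_M o))
  have hbI : b ∈ Set.Icc (0:ℝ) 1 := ⟨hb0, hb.le⟩
  set c0 := 1 - Real.exp (-(b - a) / M) with hc0
  have hc0pos : 0 < c0 := by
    have h1 : Real.exp (-(b - a) / M) < 1 :=
      Real.exp_lt_one_iff.2 (div_neg_of_neg_of_pos (by linarith) hM)
    linarith
  have hinf : c0 ≤ (percMeasure G ⟨b, hbI⟩).real (infAt G o) := by
    have := infAt_real_ge (G := G) ⟨b, hbI⟩ o Set.univ MeasurableSet.univ c0 fun B hB => by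
      rw [Set.univ_inter, real_escEvent]
      exact theta_lower G hab.le hb hc B hB
    rwa [Set.univ_inter] at this
  have hpc : pc G ≤ b := by
    refine csInf_le ⟨0, fun x ⟨hx, _⟩ => hx.1⟩ ⟨hbI, ?_⟩
    have h1 : 0 < percMeasure G ⟨b, hbI⟩ (infAt G o) :=
      (ENNReal.toReal_pos_iff.1 (lt_of_lt_of_le hc0pos hinf)).1
    exact lt_of_lt_of_le h1 (measure_mono fun ω hω => ⟨_, hω⟩)
  have hpu : 1 / lam ≤ pu G := by
    refine le_csInf ⟨1, ⟨zero_le_one, le_rfl⟩, ?_⟩ ?_
    · exact unique_at_one hconn
    · rintro p ⟨hp, hU⟩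
      by_contra hlt
      exact not_unique hconn hq hca.norm hlam.le ⟨p, hp⟩ ((lt_div_iff₀ hlam).1 (not_le.1 hlt)) hU
  exact lt_of_le_of_lt hpc (lt_of_lt_of_le ((lt_div_iff₀ hlam).2 hblam) hpu)

/-- A superharmonic function with a spectral gap and large degree give `p_c < p_u`. -/
theorem pc_lt_pu_of_gap (hconn : G.Connected) [Infinite V] (hq : QuasiTransitive G)
    {D : ℕ} {h : V → ℝ} {M Lam η : ℝ} (hη : 0 < η) (hη2 : η ≤ 1 / 2)
    (hdeg : ∀ x, #(G.neighborFinset x) ≤ D) (hone : ∀ x, 1 ≤ h x) (hle : ∀ x, h x ≤ M)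
    (hsuper : ∀ x, Lam * h x ≤ ∑ y ∈ G.neighborFinset x, h y) (hLam : 2 ≤ Lam)
    (hN : AdjNorm G ((1 - η) * Lam)) (hbig : 50 * M * D ≤ η ^ 3 * Lam ^ 2) : pc G < pu G := by
  obtain ⟨o⟩ := hconn.nonempty
  have hM : 1 ≤ M := (hone o).trans (hle o)
  have hL : 0 < Lam := by linarith
  refine pc_lt_pu_of_crit hconn hq (a := (1 + η / 4) / Lam) (b := (1 + η / 2) / Lam)
    (lam := (1 - η) * Lam) (h := h) (M := M) (Lam := Lam) (D := D) ?_ ?_ ?_ ?_ ?_
  · gcongr; linarith
  · rw [div_lt_one hL]; linarith
  · exact mul_pos (by linarith) hL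
  · field_simp; nlinarith
  · intro p ⟨hpa, hpb⟩
    have hp0 : 0 ≤ p := le_trans (by positivity) hpa
    have hpb' : p * Lam ≤ 1 + η / 2 := (le_div_iff₀ hL).1 hpb
    have hpa' : 1 + η / 4 ≤ p * Lam := (div_le_iff₀ hL).1 hpa
    have hp1 : p ≤ 1 := by
      by_contra hcon
      have := mul_le_mul_of_nonneg_right (not_le.1 hcon).le hL.le
      linarith
    have hr : p * ((1 - η) * Lam) ≤ 1 - η / 2 := by
      have := mul_le_mul_of_nonneg_right hpb' (show (0:ℝ) ≤ 1 - η by linarith)
      nlinarith
    refine ⟨hp0, hp1, mul_nonneg (by linarith) hL.le, by linarith, hdeg, hN, hone, hle, hsuper, ?_⟩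
    have hK : cycleConst p ((1 - η) * Lam) D ≤ 8 * p * D / η ^ 2 := by
      unfold cycleConst
      have h1 : (η / 2) ^ 2 ≤ (1 - p * ((1 - η) * Lam)) ^ 2 :=
        pow_le_pow_left₀ (by linarith) (by linarith) 2
      calc 2 * p * D / (1 - p * ((1 - η) * Lam)) ^ 2 ≤ 2 * p * D / (η / 2) ^ 2 :=
            div_le_div_of_nonneg_left (by positivity) (by positivity) h1
        _ = _ := by field_simp; ring
    have hpK : p * (M * cycleConst p ((1 - η) * Lam) D) ≤ η / 4 := by
      calc p * (M * cycleConst p ((1 - η) * Lam) D) ≤ p * (M * (8 * p * D / η ^ 2)) :=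
            mul_le_mul_of_nonneg_left (mul_le_mul_of_nonneg_left hK (by linarith)) hp0
        _ = 8 * M * D * (p * Lam) ^ 2 / (η ^ 2 * Lam ^ 2) := by field_simp
        _ ≤ 8 * M * D * (5 / 4) ^ 2 / (η ^ 2 * Lam ^ 2) := by
            have : (p * Lam) ^ 2 ≤ (5 / 4) ^ 2 := pow_le_pow_left₀ (by positivity) (by linarith) 2
            have h0 : 0 ≤ 8 * M * (D:ℝ) := by positivity
            gcongr
        _ ≤ η / 4 := by
            rw [div_le_iff₀ (by positivity)]
            nlinarith
    have h5 : p * (Lam - M * cycleConst p ((1 - η) * Lam) D)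
        = p * Lam - p * (M * cycleConst p ((1 - η) * Lam) D) := by ring
    rw [h5]
    linarith

end Vale.Agent.P165
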