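import Vale.Agent.P165.Finite

/-!
From finite volume to the percolation measure.
-/

namespace Vale.Agent.P165

open MeasureTheory ProbabilityTheory SimpleGraph Finset
open scoped Classical ENNReal

set_option linter.unusedSectionVars false

variable {V : Type*} {G : SimpleGraph V}

/-- The open edges inside a finite edge set. -/
noncomputable def tr (E : Finset (Sym2 V)) (ω : Set (Sym2 V)) : Finset (Sym2 V) :=
  E.filter (fun e => e ∈ ω)

lemma mem_tr {E : Finset (Sym2 V)} {ω : Set (Sym2 V)} {e : Sym2 V} :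
    e ∈ tr E ω ↔ e ∈ E ∧ e ∈ ω := by simp [tr]

lemma measurableSet_tr_eq (E A : Finset (Sym2 V)) :
    MeasurableSet {ω : Set (Sym2 V) | tr E ω = A} := by
  have : {ω : Set (Sym2 V) | tr E ω = A}
      = (⋂ e ∈ E, {ω | e ∈ ω ↔ e ∈ A}) ∩ {_ω | A ⊆ E} := by
    ext ω
    simp only [Set.mem_setOf_eq, Set.mem_inter_iff, Set.mem_iInter]
    constructor
    · rintro rfl
      exact ⟨fun e he => ⟨fun h => mem_tr.2 ⟨he, h⟩, fun h => (mem_tr.1 h).2⟩,
        filter_subset _ _⟩
    · rintro ⟨h1, h2⟩
      ext e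
      rw [mem_tr]
      exact ⟨fun ⟨a, b⟩ => (h1 e a).1 b, fun h => ⟨h2 h, (h1 e (h2 h)).2 h⟩⟩
  rw [this]
  refine MeasurableSet.inter (Finset.measurableSet_biInter _ fun e _ => ?_) (MeasurableSet.const _)
  by_cases h : e ∈ A
  · simpa [h] using measurable_set_mem e MeasurableSet.of_discrete (t := {True})
  · simpa [h] using measurable_set_mem e MeasurableSet.of_discrete (t := {False})

lemma tr_mem_powerset (E : Finset (Sym2 V)) (ω : Set (Sym2 V)) : tr E ω ∈ E.powerset :=
  mem_powerset.2 (filter_subset _ _)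

lemma measurableSet_tr (E : Finset (Sym2 V)) (F : Finset (Sym2 V) → Prop) :
    MeasurableSet {ω : Set (Sym2 V) | F (tr E ω)} := by
  have : {ω : Set (Sym2 V) | F (tr E ω)}
      = ⋃ A ∈ E.powerset.filter (fun A => F A), {ω | tr E ω = A} := by
    ext ω
    simp only [Set.mem_setOf_eq, Set.mem_iUnion, mem_filter, exists_prop]
    exact ⟨fun h => ⟨tr E ω, ⟨tr_mem_powerset E ω, h⟩, rfl⟩,
      fun ⟨A, hA, h⟩ => h.symm ▸ hA.2⟩
  rw [this]
  exact Finset.measurableSet_biUnion _ fun A _ => measurableSet_tr_eq E A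

lemma percMeasure_isProbability (G : SimpleGraph V) (p : unitInterval) :
    IsProbabilityMeasure (percMeasure G p) := by
  unfold percMeasure; infer_instance

instance (G : SimpleGraph V) (p : unitInterval) : IsProbabilityMeasure (percMeasure G p) :=
  percMeasure_isProbability G p

lemma real_tr_eq (p : unitInterval) {E A : Finset (Sym2 V)} (hE : (E : Set (Sym2 V)) ⊆ G.edgeSet)
    (hA : A ⊆ E) :
    (percMeasure G p).real {ω | tr E ω = A} = (p : ℝ) ^ #A * (1 - (p : ℝ)) ^ (#E - #A) := by
  have hpre : ((fun q : Sym2 V → Prop => {i | q i}) ⁻¹' {ω | tr E ω = A})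
      = Set.pi (E : Set (Sym2 V)) (fun i => {i ∈ A}) := by
    ext q
    simp only [Set.mem_preimage, Set.mem_setOf_eq, Set.mem_pi, Finset.mem_coe,
      Set.mem_singleton_iff, eq_iff_iff]
    constructor
    · rintro rfl i hi
      rw [mem_tr]
      exact ⟨fun h => ⟨hi, h⟩, fun h => h.2⟩
    · intro h
      ext i
      rw [mem_tr]
      exact ⟨fun ⟨a, b⟩ => (h i a).1 b, fun h' => ⟨hA h', (h i (hA h')).2 h'⟩⟩
  rw [percMeasure, measureReal_def, setBernoulli_apply', hpre,
    Measure.infinitePi_pi (hμ := fun i => by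
      constructor
      simp [← ENNReal.coe_add]) _ (fun i _ => MeasurableSet.of_discrete)]
  rw [ENNReal.toReal_prod]
  have hval : ∀ i ∈ E, ((unitInterval.toNNReal p • Measure.dirac (i ∈ G.edgeSet)
      + unitInterval.toNNReal (unitInterval.symm p) • Measure.dirac False : Measure Prop)
        {i ∈ A}).toReal = if i ∈ A then (p : ℝ) else 1 - (p : ℝ) := by
    intro i hi
    have hg : (i ∈ G.edgeSet) = True := eq_true (hE hi)
    by_cases hiA : i ∈ A
    · rw [if_pos hiA, show ({i ∈ A} : Set Prop) = {True} by simp [hiA], hg]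
      simp
    · rw [if_neg hiA, show ({i ∈ A} : Set Prop) = {False} by simp [hiA], hg]
      simp
  rw [prod_congr rfl hval, prod_ite, prod_const, prod_const, filter_not,
    filter_mem_eq_inter, inter_eq_right.2 hA, card_sdiff_of_subset hA]

lemma real_tr (p : unitInterval) {E : Finset (Sym2 V)} (hE : (E : Set (Sym2 V)) ⊆ G.edgeSet)
    (F : Finset (Sym2 V) → Prop) :
    (percMeasure G p).real {ω | F (tr E ω)}
      = expect (p : ℝ) E (fun A => if F A then 1 else 0) := by
  have : {ω : Set (Sym2 V) | F (tr E ω)}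
      = ⋃ A ∈ E.powerset.filter (fun A => F A), {ω | tr E ω = A} := by
    ext ω
    simp only [Set.mem_setOf_eq, Set.mem_iUnion, mem_filter, exists_prop]
    exact ⟨fun h => ⟨tr E ω, ⟨tr_mem_powerset E ω, h⟩, rfl⟩,
      fun ⟨A, hA, h⟩ => h.symm ▸ hA.2⟩
  rw [this, measureReal_biUnion_finset]
  · rw [expect, sum_filter]
    refine sum_congr rfl fun A hA => ?_
    split_ifs
    · rw [real_tr_eq p hE (mem_powerset.1 hA), mul_one]
    · rw [mul_zero]
  · intro A _ B _ hne
    simp only [Function.onFun, Set.disjoint_left, Set.mem_setOf_eq]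
    exact fun ω h1 h2 => hne (h1.symm.trans h2)
  · exact fun A _ => measurableSet_tr_eq E A

variable [G.LocallyFinite]

lemma edgesAt_subset (B : Finset V) : (edgesAt G B : Set (Sym2 V)) ⊆ G.edgeSet := by
  intro e
  induction e using Sym2.ind with
  | h x y => intro h; exact ((mem_edgesAt G).1 h).1

/-- `o` is connected to the outside of `B`. -/
def escEvent (G : SimpleGraph V) (B : Finset V) (o : V) : Set (Set (Sym2 V)) :=
  {ω | ∃ z, z ∉ B ∧ (openGraph G ω).Reachable o z}

/-- `o` is in an infinite cluster. -/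
def infAt (G : SimpleGraph V) (o : V) : Set (Set (Sym2 V)) :=
  {ω | ((openGraph G ω).connectedComponentMk o).supp.Infinite}

lemma og_tr_le {E : Finset (Sym2 V)} (hE : (E : Set (Sym2 V)) ⊆ G.edgeSet) (ω : Set (Sym2 V)) :
    og (tr E ω) ≤ openGraph G ω := by
  refine fromEdgeSet_mono fun e he => ?_
  rw [Finset.mem_coe, mem_tr] at he
  exact ⟨he.2, hE he.1⟩

lemma escEvent_eq (B : Finset V) (o : V) :
    escEvent G B o = {ω | Esc B (tr (edgesAt G B) ω) o} := by
  ext ω
  constructor
  · rintro ⟨z, hz, ⟨r⟩⟩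
    induction r with
    | nil => exact ⟨_, hz, Reachable.refl _⟩
    | @cons u v w huv q ih =>
      by_cases hu : u ∈ B
      · obtain ⟨z', hz', hr⟩ := ih hz
        refine ⟨z', hz', Reachable.trans (Adj.reachable ?_) hr⟩
        simp only [openGraph, fromEdgeSet_adj, Set.mem_inter_iff, mem_edgeSet] at huv
        exact og_adj.2 ⟨mem_tr.2 ⟨(mem_edgesAt G).2 ⟨huv.1.2, Or.inl hu⟩, huv.1.1⟩, huv.2⟩
      · exact ⟨u, hu, Reachable.refl _⟩
  · rintro ⟨z, hz, hr⟩
    exact ⟨z, hz, hr.mono (og_tr_le (edgesAt_subset B) ω)⟩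

lemma real_escEvent (p : unitInterval) (B : Finset V) (o : V) :
    (percMeasure G p).real (escEvent G B o) = theta G (p : ℝ) B o := by
  rw [escEvent_eq, real_tr p (edgesAt_subset B) (fun A => Esc B A o)]
  rfl

lemma measurableSet_escEvent (B : Finset V) (o : V) : MeasurableSet (escEvent G B o) := by
  rw [escEvent_eq]
  exact measurableSet_tr _ (fun A => Esc B A o)

lemma infAt_eq_iInter (o : V) : infAt G o = ⋂ B : Finset V, escEvent G B o := by
  ext ω
  simp only [infAt, escEvent, Set.mem_setOf_eq, Set.mem_iInter]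
  constructor
  · intro h B
    obtain ⟨z, hz, hzB⟩ := h.exists_notMem_finset B
    exact ⟨z, hzB, (ConnectedComponent.exact hz).symm⟩
  · intro h hfin
    obtain ⟨z, hz, hr⟩ := h hfin.toFinset
    exact hz (hfin.mem_toFinset.2 (ConnectedComponent.sound hr.symm))

lemma escEvent_anti {B B' : Finset V} (h : B ⊆ B') (o : V) :
    escEvent G B' o ⊆ escEvent G B o := fun _ ⟨z, hz, hr⟩ => ⟨z, fun hb => hz (h hb), hr⟩

variable [Countable V]

lemma measurableSet_infAt (o : V) : MeasurableSet (infAt G o) := by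
  rw [infAt_eq_iInter]
  exact MeasurableSet.iInter fun B => measurableSet_escEvent B o

lemma exists_exhaustion (o : V) :
    ∃ B : ℕ → Finset V, Monotone B ∧ (∀ n, o ∈ B n) ∧ ∀ T : Finset V, ∃ n, T ⊆ B n := by
  have : Nonempty V := ⟨o⟩
  obtain ⟨f, hf⟩ := exists_surjective_nat V
  refine ⟨fun n => insert o ((range n).image f),
    fun a b h => insert_subset_insert _ (image_subset_image (range_subset_range.2 h)),
    fun n => mem_insert_self _ _, fun T => ?_⟩
  choose g hg using hf
  refine ⟨(T.sup g) + 1, fun x hx => mem_insert_of_mem (Finset.mem_image.2 ⟨g x, ?_, hg x⟩)⟩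
  exact mem_range.2 (Nat.lt_succ_of_le (le_sup (f := g) hx))

lemma infAt_real_ge (p : unitInterval) (o : V) (s : Set (Set (Sym2 V))) (hs : MeasurableSet s)
    (c : ℝ) (h : ∀ B : Finset V, o ∈ B → c ≤ (percMeasure G p).real (s ∩ escEvent G B o)) :
    c ≤ (percMeasure G p).real (s ∩ infAt G o) := by
  obtain ⟨B, hmono, ho, hcof⟩ := exists_exhaustion o
  have hanti : Antitone fun n => s ∩ escEvent G (B n) o :=
    fun a b hab => Set.inter_subset_inter_right _ (escEvent_anti (hmono hab) o)
  have heq : s ∩ infAt G o = ⋂ n, s ∩ escEvent G (B n) o := by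
    rw [infAt_eq_iInter, ← Set.inter_iInter]
    congr 1
    ext ω
    simp only [Set.mem_iInter]
    refine ⟨fun hω n => hω (B n), fun hω T => ?_⟩
    obtain ⟨n, hn⟩ := hcof T
    exact escEvent_anti hn o (hω n)
  have ht := tendsto_measure_iInter_atTop (μ := percMeasure G p)
    (fun n => (hs.inter (measurableSet_escEvent (B n) o)).nullMeasurableSet) hanti
    ⟨0, measure_ne_top _ _⟩
  rw [← heq] at ht
  have ht' := (ENNReal.tendsto_toReal (measure_ne_top _ _)).comp ht
  refine ge_of_tendsto' ht' fun n => ?_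
  simpa [measureReal_def] using h (B n) (ho n)

lemma infAt_le_esc (p : unitInterval) (B : Finset V) (o : V) :
    (percMeasure G p).real (infAt G o) ≤ (percMeasure G p).real (escEvent G B o) :=
  measureReal_mono fun ω h => by
    rw [infAt_eq_iInter, Set.mem_iInter] at h
    exact h B

/-- A finite edge set is open. -/
def allOpen (Q : Finset (Sym2 V)) : Set (Set (Sym2 V)) := {ω | (Q : Set (Sym2 V)) ⊆ ω}

lemma allOpen_eq (E Q : Finset (Sym2 V)) (h : Q ⊆ E) :
    allOpen Q = {ω : Set (Sym2 V) | Q ⊆ tr E ω} := by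
  ext ω
  exact ⟨fun hω e he => mem_tr.2 ⟨h he, hω he⟩, fun hω e he => (mem_tr.1 (hω he)).2⟩

lemma measurableSet_allOpen (Q : Finset (Sym2 V)) : MeasurableSet (allOpen Q) := by
  rw [allOpen_eq Q Q subset_rfl]
  exact measurableSet_tr _ (fun A => Q ⊆ A)

lemma real_allOpen (p : unitInterval) {Q : Finset (Sym2 V)}
    (hQ : (Q : Set (Sym2 V)) ⊆ G.edgeSet) :
    (percMeasure G p).real (allOpen Q) = (p : ℝ) ^ #Q := by
  rw [allOpen_eq Q Q subset_rfl, real_tr p hQ (fun A => Q ⊆ A)]
  have := expect_contains (p := (p : ℝ)) (subset_refl Q) (fun _ => (1:ℝ))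
  rw [expect_const, mul_one] at this
  convert this using 4

lemma expect_harris {p : ℝ} (hp0 : 0 ≤ p) (hp1 : p ≤ 1) {E Q : Finset (Sym2 V)} (hQ : Q ⊆ E)
    {F : Finset (Sym2 V) → ℝ} (hF : ∀ A A', A ⊆ A' → F A ≤ F A') :
    p ^ #Q * expect p E F ≤ expect p E (fun ω => if Q ⊆ ω then F ω else 0) := by
  have h1 : expect p E (fun ω => if Q ⊆ ω then F ω else 0)
      = expect p E (fun ω => if Q ⊆ ω then (fun a => F (a ∪ Q)) (ω \ Q) else 0) := by
    refine expect_congr fun ω _ => ?_
    split_ifs with h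
    · simp only
      rw [Finset.sdiff_union_of_subset h]
    · rfl
  have h2 : expect p E (fun ω => if Q ⊆ ω then (fun a => F (a ∪ Q)) (ω \ Q) else 0)
      = p ^ #Q * expect p (E \ Q) (fun a => F (a ∪ Q)) := by
    convert expect_contains (p := p) hQ (fun a => F (a ∪ Q)) using 4
  rw [h1, h2]
  refine mul_le_mul_of_nonneg_left ?_ (pow_nonneg hp0 _)
  conv_lhs => rw [← Finset.sdiff_union_of_subset hQ, expect_union Finset.sdiff_disjoint]
  refine expect_mono hp0 hp1 fun a _ => ?_
  calc expect p Q (fun b => F (a ∪ b)) ≤ expect p Q (fun _ => F (a ∪ Q)) :=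
        expect_mono hp0 hp1 fun b hb => hF _ _ (Finset.union_subset_union_right hb)
    _ = _ := expect_const _ _ _

lemma walk_edges_subset {x y : V} (π : G.Walk x y) :
    (π.edges.toFinset : Set (Sym2 V)) ⊆ G.edgeSet := by
  intro e he
  rw [Finset.mem_coe, List.mem_toFinset] at he
  exact π.edges_subset_edgeSet he

lemma openGraph_le (ω : Set (Sym2 V)) : openGraph G ω ≤ G := by
  intro x y h
  simp only [openGraph, fromEdgeSet_adj, Set.mem_inter_iff, mem_edgeSet] at h
  exact h.1.2

lemma reachable_of_allOpen {x y : V} (π : G.Walk x y) {ω : Set (Sym2 V)}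
    (h : ω ∈ allOpen π.edges.toFinset) : (openGraph G ω).Reachable x y := by
  refine ⟨π.transfer _ fun e he => ?_⟩
  rw [openGraph, edgeSet_fromEdgeSet]
  have hG := π.edges_subset_edgeSet he
  exact ⟨⟨h (List.mem_toFinset.2 he), hG⟩, fun hd => G.not_isDiag_of_mem_edgeSet hG hd⟩

lemma infAt_transport (p : unitInterval) {x o : V} (π : G.Walk x o) :
    (p : ℝ) ^ #π.edges.toFinset * (percMeasure G p).real (infAt G o)
      ≤ (percMeasure G p).real (infAt G x) := by
  set Q := π.edges.toFinset with hQdef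
  have hQ := walk_edges_subset π
  calc (p : ℝ) ^ #Q * (percMeasure G p).real (infAt G o)
      ≤ (percMeasure G p).real (allOpen Q ∩ infAt G o) := by
        refine infAt_real_ge p o _ (measurableSet_allOpen Q) _ fun B _ => ?_
        set E := edgesAt G B ∪ Q with hEdef
        have hE : (E : Set (Sym2 V)) ⊆ G.edgeSet := by
          rw [hEdef, Finset.coe_union]; exact Set.union_subset (edgesAt_subset B) hQ
        set F : Finset (Sym2 V) → Prop := fun A => Esc B (A.filter (· ∈ edgesAt G B)) o with hF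
        have hesc : escEvent G B o = {ω | F (tr E ω)} := by
          rw [escEvent_eq]
          ext ω
          simp only [Set.mem_setOf_eq, hF]
          have hf : (tr E ω).filter (· ∈ edgesAt G B) = tr (edgesAt G B) ω := by
            ext e; simp only [mem_filter, mem_tr, hEdef, Finset.mem_union]; tauto
          rw [hf]
        have hset : allOpen Q ∩ escEvent G B o
            = {ω | (fun A => Q ⊆ A ∧ F A) (tr E ω)} := by
          rw [hesc, allOpen_eq E Q subset_union_right]
          ext ω; simp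
        calc (p : ℝ) ^ #Q * (percMeasure G p).real (infAt G o)
            ≤ (p : ℝ) ^ #Q * (percMeasure G p).real (escEvent G B o) :=
              mul_le_mul_of_nonneg_left (infAt_le_esc p B o) (pow_nonneg p.2.1 _)
          _ ≤ _ := by
            rw [hset, hesc, real_tr p hE F, real_tr p hE (fun A => Q ⊆ A ∧ F A)]
            refine (expect_harris p.2.1 p.2.2 subset_union_right
              (F := fun A => if F A then (1:ℝ) else 0) fun A A' h => ?_).trans (le_of_eq ?_)
            · by_cases hA : F A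
              · obtain ⟨z, hz, hr⟩ := hA
                rw [if_pos ⟨z, hz, hr⟩, if_pos ⟨z, hz, hr.mono (og_mono (filter_subset_filter _ h))⟩]
              · rw [if_neg hA]; split_ifs <;> norm_num
            · refine expect_congr fun A _ => ?_
              by_cases h1 : Q ⊆ A <;> by_cases h2 : F A <;> simp [h1, h2]
    _ ≤ _ := measureReal_mono fun ω hω => by
        simp only [infAt, Set.mem_setOf_eq]
        rw [ConnectedComponent.sound (reachable_of_allOpen π hω.1)]
        exact hω.2

/-- `x` and `y` are connected. -/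
def connEvent (G : SimpleGraph V) (x y : V) : Set (Set (Sym2 V)) :=
  {ω | (openGraph G ω).Reachable x y}

/-- The walks with `n` steps and no repeated edge. -/
noncomputable def trails (n : ℕ) (x y : V) : Finset (G.Walk x y) :=
  (G.finsetWalkLength n x y).filter fun π => π.edges.Nodup

lemma connEvent_eq (x y : V) :
    connEvent G x y = ⋃ n : ℕ, ⋃ π ∈ trails (G := G) n x y, allOpen π.edges.toFinset := by
  ext ω
  simp only [connEvent, Set.mem_setOf_eq, Set.mem_iUnion, exists_prop, trails, mem_filter]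
  constructor
  · rintro ⟨r⟩
    refine ⟨r.bypass.length, r.bypass.mapLe (openGraph_le ω), ⟨?_, ?_⟩, ?_⟩
    · exact mem_finsetWalkLength_iff.2 (Walk.length_mapLe _ _)
    · rw [Walk.edges_mapLe_eq_edges]; exact r.bypass_isPath.isTrail.edges_nodup
    · intro e he
      rw [Finset.mem_coe, List.mem_toFinset, Walk.edges_mapLe_eq_edges] at he
      have h1 := r.bypass.edges_subset_edgeSet he
      rw [openGraph, edgeSet_fromEdgeSet] at h1
      exact h1.1.1
  · rintro ⟨n, π, _, hπ⟩
    exact reachable_of_allOpen π hπ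

lemma measurableSet_connEvent (x y : V) : MeasurableSet (connEvent G x y) := by
  rw [connEvent_eq]
  exact MeasurableSet.iUnion fun n =>
    Finset.measurableSet_biUnion _ fun π _ => measurableSet_allOpen _

lemma real_trails_le {lam : ℝ} (hN : AdjNorm G lam) (hlam : 0 ≤ lam) (p : unitInterval)
    (n : ℕ) (x y : V) :
    (percMeasure G p).real (⋃ π ∈ trails (G := G) n x y, allOpen π.edges.toFinset)
      ≤ ((p : ℝ) * lam) ^ n := by
  calc _ ≤ ∑ π ∈ trails (G := G) n x y, (percMeasure G p).real (allOpen π.edges.toFinset) :=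
        measureReal_biUnion_finset_le _ _
    _ = ∑ _π ∈ trails (G := G) n x y, (p : ℝ) ^ n := by
        refine sum_congr rfl fun π hπ => ?_
        rw [trails, mem_filter, mem_finsetWalkLength_iff] at hπ
        rw [real_allOpen p (walk_edges_subset π), List.toFinset_card_of_nodup hπ.2,
          Walk.length_edges, hπ.1]
    _ ≤ (nWalks G n x y : ℝ) * (p : ℝ) ^ n := by
        rw [sum_const, nsmul_eq_mul]
        refine mul_le_mul_of_nonneg_right ?_ (pow_nonneg p.2.1 _)
        exact_mod_cast card_le_card (filter_subset _ _)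
    _ ≤ lam ^ n * (p : ℝ) ^ n :=
        mul_le_mul_of_nonneg_right (nWalks_le G hN hlam n x y) (pow_nonneg p.2.1 _)
    _ = _ := by rw [mul_pow]; ring

lemma real_connEvent_le {lam : ℝ} (hN : AdjNorm G lam) (hlam : 0 ≤ lam) (p : unitInterval)
    (hr : (p : ℝ) * lam < 1) (R : ℕ) (x y : V) (hfar : ∀ n < R, nWalks G n x y = 0) :
    (percMeasure G p).real (connEvent G x y) ≤ ((p : ℝ) * lam) ^ R / (1 - (p : ℝ) * lam) := by
  set r := (p : ℝ) * lam with hr'
  have hr0 : 0 ≤ r := mul_nonneg p.2.1 hlam
  set S : ℕ → Set (Set (Sym2 V)) :=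
    fun n => ⋃ π ∈ trails (G := G) n x y, allOpen π.edges.toFinset with hS
  have hzero : ∀ n < R, S n = ∅ := by
    intro n hn
    have h0 : trails (G := G) n x y = ∅ := by
      have := Finset.card_eq_zero.1 (hfar n hn)
      rw [trails, this, filter_empty]
    simp [hS, h0]
  have hnn : 0 ≤ r ^ R / (1 - r) := div_nonneg (pow_nonneg hr0 _) (by linarith)
  have hsum : Summable fun i : ℕ => r ^ (i + R) := by
    simpa [pow_add] using (summable_geometric_of_lt_one hr0 hr).mul_right (r ^ R)
  have hU : connEvent G x y = ⋃ i : ℕ, S (i + R) := by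
    rw [connEvent_eq]
    ext ω
    simp only [Set.mem_iUnion]
    constructor
    · rintro ⟨n, π, hπ, hω⟩
      by_cases hn : n < R
      · have hmem : ω ∈ S n := Set.mem_iUnion₂.2 ⟨π, hπ, hω⟩
        rw [hzero n hn] at hmem
        exact hmem.elim
      · refine ⟨n - R, ?_⟩
        rw [Nat.sub_add_cancel (not_lt.1 hn)]
        exact Set.mem_iUnion₂.2 ⟨π, hπ, hω⟩
    · rintro ⟨i, hi⟩
      obtain ⟨π, hπ, hω⟩ := Set.mem_iUnion₂.1 hi
      exact ⟨i + R, π, hπ, hω⟩
  rw [hU, measureReal_def]
  refine ENNReal.toReal_le_of_le_ofReal hnn ?_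
  calc percMeasure G p (⋃ i : ℕ, S (i + R)) ≤ ∑' i, percMeasure G p (S (i + R)) :=
        measure_iUnion_le _
    _ ≤ ∑' i, ENNReal.ofReal (r ^ (i + R)) := ENNReal.tsum_le_tsum fun i =>
        ENNReal.le_ofReal_iff_toReal_le (measure_ne_top _ _) (pow_nonneg hr0 _) |>.2
          (real_trails_le hN hlam p _ x y)
    _ = ENNReal.ofReal (∑' i, r ^ (i + R)) :=
        (ENNReal.ofReal_tsum_of_nonneg (fun i => pow_nonneg hr0 _) hsum).symm
    _ = _ := by
        congr 1
        simp only [pow_add]
        rw [tsum_mul_right, tsum_geometric_of_lt_one hr0 hr]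
        ring

end Vale.Agent.P165
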