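import Vale.Agent.P165.Gap

/-!
Spread-out graphs: `x ~ y` iff `1 ≤ dist x y ≤ r`.
-/

namespace Vale.Agent.P165

open MeasureTheory SimpleGraph Finset
open scoped Classical

set_option linter.unusedSectionVars false

variable {V : Type*} {G : SimpleGraph V} [G.LocallyFinite]

/-- Closed ball of radius `n`. -/
noncomputable def cball (G : SimpleGraph V) [G.LocallyFinite] (x : V) (n : ℕ) : Finset V :=
  nbhd G {x} n

lemma mem_cball (hconn : G.Connected) {x z : V} {n : ℕ} :
    z ∈ cball G x n ↔ G.dist x z ≤ n := by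
  induction n generalizing z with
  | zero => simp [cball, nbhd, hconn.dist_eq_zero_iff, eq_comm]
  | succ n ih =>
    simp only [cball] at ih
    simp only [cball, nbhd, Finset.mem_union, mem_biUnion, mem_neighborFinset, ih]
    constructor
    · rintro (h | ⟨y, hy, hadj⟩)
      · omega
      · have := hconn.dist_triangle (u := x) (v := y) (w := z)
        rw [dist_eq_one_iff_adj.2 hadj] at this
        omega
    · intro h
      obtain ⟨w, hw⟩ := hconn.exists_walk_length_eq_dist z x
      cases w with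
      | nil => left; simp
      | @cons _ b _ hadj q =>
        right
        refine ⟨b, ?_, hadj.symm⟩
        have h1 := dist_le q
        rw [Walk.length_cons, dist_comm (u := z)] at hw
        rw [dist_comm] at h1
        omega

lemma cball_self (hconn : G.Connected) (x : V) (n : ℕ) : x ∈ cball G x n :=
  (mem_cball hconn).2 (by simp)

lemma cball_mono (x : V) {m n : ℕ} (h : m ≤ n) : cball G x m ⊆ cball G x n := nbhd_mono _ h

lemma cball_card_add {D : ℕ} (hdeg : ∀ x, #(G.neighborFinset x) ≤ D) (x : V) (n k : ℕ) :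
    #(cball G x (n + k)) ≤ #(cball G x n) * (D + 1) ^ k := by
  induction k with
  | zero => simp
  | succ k ih =>
    have hrec : cball G x (n + (k + 1))
        = cball G x (n + k) ∪ (cball G x (n + k)).biUnion fun y => G.neighborFinset y := rfl
    rw [hrec]
    calc _ ≤ #(cball G x (n + k)) + #((cball G x (n + k)).biUnion fun y => G.neighborFinset y) :=
          card_union_le _ _
      _ ≤ #(cball G x (n + k)) + #(cball G x (n + k)) * D :=
          Nat.add_le_add_left (card_biUnion_le_card_mul _ _ _ fun y _ => hdeg y) _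
      _ = #(cball G x (n + k)) * (D + 1) := by ring
      _ ≤ #(cball G x n) * (D + 1) ^ k * (D + 1) := Nat.mul_le_mul_right _ ih
      _ = _ := by rw [pow_succ, mul_assoc]

lemma cball_growth (hconn : G.Connected) [Infinite V] (x : V) (n : ℕ) :
    n + 1 ≤ #(cball G x n) := by
  induction n with
  | zero => exact card_pos.2 ⟨x, cball_self hconn x 0⟩
  | succ n ih =>
    by_contra hlt
    have heq : cball G x n = cball G x (n + 1) :=
      eq_of_subset_of_card_le (cball_mono x n.le_succ) (by omega)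
    have hclosed : ∀ {a b : V} (w : G.Walk a b), a ∈ cball G x n → b ∈ cball G x n := by
      intro a b w
      induction w with
      | nil => exact id
      | @cons a c b hadj q ih =>
        intro ha
        apply ih
        rw [heq]
        exact Finset.mem_union_right _ (mem_biUnion.2 ⟨a, ha, (mem_neighborFinset G a c).2 hadj⟩)
    refine Set.infinite_univ.not_finite ((cball G x n).finite_toSet.subset fun z _ => ?_)
    obtain ⟨w⟩ := hconn.preconnected x z
    exact hclosed w (cball_self hconn x n)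

lemma dist_map (hconn : G.Connected) (φ : G ≃g G) (x y : V) :
    G.dist (φ x) (φ y) = G.dist x y := by
  refine le_antisymm ?_ ?_
  · obtain ⟨w, hw⟩ := hconn.exists_walk_length_eq_dist x y
    have := dist_le (w.map φ.toHom)
    rw [Walk.length_map, hw] at this
    exact this
  · obtain ⟨w, hw⟩ := hconn.exists_walk_length_eq_dist (φ x) (φ y)
    have := dist_le (w.map φ.symm.toHom)
    rw [Walk.length_map, hw] at this
    simpa using this

lemma cball_card_map (hconn : G.Connected) (φ : G ≃g G) (x : V) (n : ℕ) :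
    #(cball G (φ x) n) = #(cball G x n) := by
  refine (card_bij (fun z _ => φ z) ?_ ?_ ?_).symm
  · intro z hz
    rw [mem_cball hconn] at hz ⊢
    rwa [dist_map hconn]
  · intro a _ b _ h
    exact φ.injective h
  · intro z hz
    obtain ⟨y, rfl⟩ := φ.surjective z
    rw [mem_cball hconn, dist_map hconn] at hz
    exact ⟨y, (mem_cball hconn).2 hz, rfl⟩

/-- Many pairs at distance at most `n + 1` cross the boundary of every finite set. -/
lemma spread_boundary (hconn : G.Connected) {D : ℕ} (hdeg : ∀ x, #(G.neighborFinset x) ≤ D)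
    {κ : ℝ} (hbd : ∀ A : Finset V, κ * #A ≤ ∑ x ∈ A, (#(G.neighborFinset x \ A) : ℝ))
    {n : ℕ} {m : ℝ} (hm0 : 0 ≤ m) (hm : ∀ u, m ≤ #(cball G u n)) (A : Finset V) :
    κ * #A * m ≤ 2 * D * ∑ x ∈ A, (#(cball G x (n + 1) \ A) : ℝ) := by
  have hsplit : ∀ u, (#(cball G u n) : ℝ) = #(cball G u n ∩ A) + #(cball G u n \ A) := by
    intro u
    rw [← Nat.cast_add, Nat.add_comm, card_sdiff_add_card_inter]
  have hout : ∀ u ∈ A, (#(G.neighborFinset u \ A) : ℝ) * #(cball G u n \ A)
      ≤ D * #(cball G u (n + 1) \ A) := by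
    intro u _
    exact mul_le_mul (Nat.cast_le.2 ((card_le_card sdiff_subset).trans (hdeg u)))
      (Nat.cast_le.2 (card_le_card (sdiff_subset_sdiff (cball_mono u n.le_succ) subset_rfl)))
      (Nat.cast_nonneg _) (Nat.cast_nonneg _)
  have hin : ∑ u ∈ A, (#(G.neighborFinset u \ A) : ℝ) * #(cball G u n ∩ A)
      ≤ D * ∑ z ∈ A, (#(cball G z (n + 1) \ A) : ℝ) := by
    have key : ∀ z ∈ A, ∑ u ∈ A.filter (fun u => z ∈ cball G u n), #(G.neighborFinset u \ A)
        ≤ #(cball G z (n + 1) \ A) * D := by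
      intro z _
      set U := A.filter (fun u => z ∈ cball G u n) with hU
      set B := cball G z (n + 1) \ A with hB
      have heq : ∀ u ∈ U, G.neighborFinset u \ A = B.filter (fun v => G.Adj u v) := by
        intro u hu
        rw [hU, mem_filter, mem_cball hconn] at hu
        ext v
        simp only [hB, Finset.mem_sdiff, mem_filter, mem_neighborFinset, mem_cball hconn]
        refine ⟨fun ⟨h1, h2⟩ => ⟨⟨?_, h2⟩, h1⟩, fun ⟨⟨_, h2⟩, h1⟩ => ⟨h1, h2⟩⟩
        have := hconn.dist_triangle (u := z) (v := u) (w := v)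
        rw [dist_eq_one_iff_adj.2 h1, dist_comm (u := z) (v := u)] at this
        omega
      calc ∑ u ∈ U, #(G.neighborFinset u \ A) = ∑ u ∈ U, #(B.filter (fun v => G.Adj u v)) :=
            sum_congr rfl fun u hu => by rw [heq u hu]
        _ = ∑ v ∈ B, #(U.filter (fun u => G.Adj u v)) := by
            simp only [card_filter]; exact sum_comm
        _ ≤ ∑ _v ∈ B, D := sum_le_sum fun v _ => by
            refine (card_le_card ?_).trans (hdeg v)
            intro u hu
            exact (mem_neighborFinset G v u).2 (mem_filter.1 hu).2.symm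
        _ = _ := by rw [sum_const, smul_eq_mul]
    have hnat : ∑ u ∈ A, #(G.neighborFinset u \ A) * #(cball G u n ∩ A)
        ≤ D * ∑ z ∈ A, #(cball G z (n + 1) \ A) := by
      calc ∑ u ∈ A, #(G.neighborFinset u \ A) * #(cball G u n ∩ A)
          = ∑ u ∈ A, ∑ z ∈ A, if z ∈ cball G u n then #(G.neighborFinset u \ A) else 0 := by
            refine sum_congr rfl fun u _ => ?_
            rw [← sum_filter, sum_const, smul_eq_mul, mul_comm, filter_mem_eq_inter, inter_comm]
        _ = ∑ z ∈ A, ∑ u ∈ A.filter (fun u => z ∈ cball G u n), #(G.neighborFinset u \ A) := by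
            rw [sum_comm]; exact sum_congr rfl fun z _ => (sum_filter _ _).symm
        _ ≤ ∑ z ∈ A, #(cball G z (n + 1) \ A) * D := sum_le_sum key
        _ = _ := by rw [mul_sum]; exact sum_congr rfl fun z _ => mul_comm _ _
    exact_mod_cast hnat
  calc κ * #A * m ≤ (∑ u ∈ A, (#(G.neighborFinset u \ A) : ℝ)) * m :=
        mul_le_mul_of_nonneg_right (hbd A) hm0
    _ ≤ ∑ u ∈ A, (#(G.neighborFinset u \ A) : ℝ) * #(cball G u n) := by
        rw [sum_mul]
        exact sum_le_sum fun u _ => mul_le_mul_of_nonneg_left (hm u) (Nat.cast_nonneg _)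
    _ ≤ _ := by
        simp only [hsplit, mul_add, sum_add_distrib]
        have := sum_le_sum hout
        rw [← mul_sum] at this
        linarith

theorem spread_gap (hconn : G.Connected) [Infinite V] (hq : QuasiTransitive G)
    (hna : Nonamenable G) :
    ∃ r₀ : ℕ, ∀ r ≥ r₀, pc (SimpleGraph.fromRel fun x y => G.dist x y ≤ r)
      < pu (SimpleGraph.fromRel fun x y => G.dist x y ≤ r) := by
  haveI := countable_of_connected hconn
  obtain ⟨o⟩ := hconn.nonempty
  obtain ⟨κ, hκ, hbd⟩ := neighbor_boundary_le hna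
  obtain ⟨Rs, hRs⟩ := hq
  set D := Rs.sup (fun r => #(G.neighborFinset r)) with hD
  have hdeg : ∀ x, #(G.neighborFinset x) ≤ D := fun x => by
    obtain ⟨φ, hφ⟩ := hRs x
    have h1 : #(G.neighborFinset x) = #(G.neighborFinset (φ x)) := by
      rw [card_neighborFinset_eq_degree, card_neighborFinset_eq_degree]
      exact (φ.degree_eq x).symm
    rw [h1]
    exact le_sup (f := fun r => #(G.neighborFinset r)) hφ
  set R0 := (Rs ×ˢ Rs).sup (fun q => G.dist q.1 q.2) with hR0
  have hdist : ∀ a ∈ Rs, ∀ b ∈ Rs, G.dist a b ≤ R0 := fun a ha b hb =>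
    le_sup (f := fun q : V × V => G.dist q.1 q.2) (Finset.mem_product.2 ⟨ha, hb⟩ : (a, b) ∈ Rs ×ˢ Rs)
  set C := (D + 1) ^ (R0 + 1) with hC
  have hC1 : 1 ≤ C := Nat.one_le_pow _ _ (Nat.succ_pos _)
  have hshift : ∀ x n, ∀ k ≤ R0 + 1, #(cball G x (n + k)) ≤ #(cball G x n) * C := fun x n k hk =>
    (cball_card_add hdeg x n k).trans
      (Nat.mul_le_mul_left _ (Nat.pow_le_pow_right (Nat.succ_pos _) hk))
  have hcomp : ∀ x y n, #(cball G x n) ≤ #(cball G y n) * C := by
    intro x y n
    obtain ⟨φ, hφ⟩ := hRs x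
    obtain ⟨ψ, hψ⟩ := hRs y
    rw [← cball_card_map hconn φ x, ← cball_card_map hconn ψ y]
    refine le_trans (card_le_card ?_) (hshift (ψ y) n R0 (Nat.le_succ _))
    intro z hz
    rw [mem_cball hconn] at hz ⊢
    have := hconn.dist_triangle (u := ψ y) (v := φ x) (w := z)
    have := hdist _ hψ _ hφ
    omega
  set Mb : ℝ := 2 * (C : ℝ) ^ 4 with hMb
  have hCR : (1:ℝ) ≤ C := by exact_mod_cast hC1
  have hMb1 : 1 ≤ Mb := by rw [hMb]; nlinarith [one_le_pow₀ (n := 4) hCR]
  set c := min (κ / (2 * (D + 1) * C ^ 3 * Mb ^ 2)) (1 / 2) with hc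
  have hc0 : 0 < c := lt_min (by positivity) (by norm_num)
  have hc1 : c < 1 := lt_of_le_of_lt (min_le_right _ _) (by norm_num)
  set s := Real.sqrt (1 - c ^ 2) with hs
  have hs0 : 0 ≤ s := Real.sqrt_nonneg _
  have hs2 : s ^ 2 = 1 - c ^ 2 := Real.sq_sqrt (by nlinarith)
  have hs1 : s < 1 := by nlinarith
  set η := min (1 - s) (1 / 2) with hη
  have hη0 : 0 < η := lt_min (by linarith) (by norm_num)
  obtain ⟨r₀, hr₀⟩ := exists_nat_ge (max (200 * Mb * C ^ 3 / η ^ 3) (4 * (C : ℝ) ^ 2))
  refine ⟨max r₀ (R0 + 1), fun r hr => ?_⟩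
  obtain ⟨n, rfl⟩ : ∃ n, r = n + 1 := ⟨r - 1, by omega⟩
  set H := SimpleGraph.fromRel fun x y => G.dist x y ≤ n + 1 with hH
  have hadjH : ∀ {x y : V}, H.Adj x y ↔ x ≠ y ∧ G.dist x y ≤ n + 1 := by
    intro x y
    simp only [hH, fromRel_adj, dist_comm (u := y) (v := x), or_self]
  letI : H.LocallyFinite := fun x =>
    Fintype.ofFinset ((cball G x (n + 1)).erase x) fun y => by
      simp [mem_cball hconn, hadjH, ne_comm]
  have hnb : ∀ x, H.neighborFinset x = (cball G x (n + 1)).erase x := fun x => by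
    ext y; simp [mem_cball hconn, hadjH, ne_comm]
  have hHconn : H.Connected := hconn.mono fun x y hxy =>
    hadjH.2 ⟨hxy.ne, (dist_eq_one_iff_adj.2 hxy).le.trans (by omega)⟩
  set lift : (G ≃g G) → (H ≃g H) := fun φ =>
    ⟨φ.toEquiv, fun {a b} => by
      show H.Adj (φ a) (φ b) ↔ H.Adj a b
      rw [hadjH, hadjH, dist_map hconn, φ.injective.ne_iff]⟩ with hlift
  have hHq : QuasiTransitive H := ⟨Rs, fun v => by
    obtain ⟨φ, hφ⟩ := hRs v; exact ⟨lift φ, hφ⟩⟩
  haveI : Nontrivial V := inferInstance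
  obtain ⟨h, M, Lam, hLam, hone, -, heig, hinv⟩ := exists_eigen hHconn hHq
  have hinvG : ∀ (φ : G ≃g G) x, h (φ x) = h x := fun φ x => hinv (lift φ) x
  have hball : ∀ x, ∑ y ∈ cball G x (n + 1), h y = (Lam + 1) * h x := fun x => by
    rw [← add_sum_erase _ _ (cball_self hconn x (n + 1)), ← hnb, heig]; ring
  set S : ℝ := (#(cball G o (n + 1)) : ℝ) with hS
  have hup : ∀ x, (#(cball G x (n + 1)) : ℝ) ≤ S * C := fun x => by
    rw [hS]; exact_mod_cast hcomp x o (n + 1)
  have hlow : ∀ x, S ≤ (#(cball G x (n + 1)) : ℝ) * C := fun x => by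
    rw [hS]; exact_mod_cast hcomp o x (n + 1)
  have hbig : 200 * Mb * C ^ 3 / η ^ 3 ≤ S ∧ 4 * (C : ℝ) ^ 2 ≤ S := by
    have h1 : (r₀ : ℝ) ≤ S := by
      rw [hS]
      exact_mod_cast (show r₀ ≤ #(cball G o (n + 1)) by
        have := cball_growth hconn o (n + 1); omega)
    exact ⟨((le_max_left _ _).trans hr₀).trans h1, ((le_max_right _ _).trans hr₀).trans h1⟩
  have hS0 : 0 < S := lt_of_lt_of_le (by positivity) hbig.2
  -- the maximum and minimum of `h`
  have hRne : Rs.Nonempty := by obtain ⟨φ, hφ⟩ := hRs o; exact ⟨_, hφ⟩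
  obtain ⟨vM, hvM, hmax⟩ := Rs.exists_max_image h hRne
  obtain ⟨vm, hvm, hmin⟩ := Rs.exists_min_image h hRne
  have hleM : ∀ x, h x ≤ h vM := fun x => by
    obtain ⟨φ, hφ⟩ := hRs x; rw [← hinvG φ x]; exact hmax _ hφ
  have hgem : ∀ x, h vm ≤ h x := fun x => by
    obtain ⟨φ, hφ⟩ := hRs x; rw [← hinvG φ x]; exact hmin _ hφ
  have hLup : Lam + 1 ≤ S * C := by
    have h1 : (Lam + 1) * h vM ≤ #(cball G vM (n + 1)) * h vM := by
      rw [← hball, ← nsmul_eq_mul, ← sum_const]
      exact sum_le_sum fun y _ => hleM y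
    exact (le_of_mul_le_mul_right h1 (lt_of_lt_of_le one_pos (hone vM))).trans (hup vM)
  have hLlow : S / (2 * C) ≤ Lam := by
    have h1 : (#(cball G vm (n + 1)) : ℝ) * h vm ≤ (Lam + 1) * h vm := by
      rw [← hball, ← nsmul_eq_mul, ← sum_const]
      exact sum_le_sum fun y _ => hgem y
    have h2 := le_of_mul_le_mul_right h1 (lt_of_lt_of_le one_pos (hone vm))
    have h3 : S ≤ (Lam + 1) * C :=
      (hlow vm).trans (mul_le_mul_of_nonneg_right h2 (by positivity))
    rw [div_le_iff₀ (by positivity)]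
    nlinarith [hbig.2]
  have hratio : ∀ x, h x ≤ Mb * h vm := by
    -- points of the orbit of `vM` are dense
    have hnear : ∀ z, ∃ w, h w = h vM ∧ G.dist z w ≤ R0 := fun z => by
      obtain ⟨φ, hφ⟩ := hRs z
      refine ⟨φ.symm vM, (hinvG φ.symm vM), ?_⟩
      have := dist_map hconn φ z (φ.symm vM)
      rw [RelIso.apply_symm_apply] at this
      rw [← this]
      exact hdist _ hφ _ hvM
    choose w hw hwd using hnear
    set n' := n + 1 - R0 with hn'
    have hn'' : n' + R0 = n + 1 := by omega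
    set P := (cball G vm n').image w with hP
    have hPsub : P ⊆ cball G vm (n + 1) := fun y hy => by
      obtain ⟨z, hz, rfl⟩ := Finset.mem_image.1 hy
      rw [mem_cball hconn] at hz ⊢
      have := hconn.dist_triangle (u := vm) (v := z) (w := w z)
      have := hwd z
      omega
    have hPcard : #(cball G vm (n + 1)) ≤ C * (C * #P) := by
      have h1 := hshift vm n' R0 (Nat.le_succ _)
      rw [hn''] at h1
      refine h1.trans ?_
      rw [mul_comm]
      refine Nat.mul_le_mul_left _ (card_le_mul_card_image _ _ fun y hy => ?_)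
      refine le_trans (card_le_card (t := cball G y R0) fun z hz => ?_) ?_
      · rw [mem_filter] at hz
        rw [mem_cball hconn, dist_comm, ← hz.2]
        exact hwd z
      · have := cball_card_add hdeg y 0 R0
        simp only [zero_add] at this
        refine this.trans ?_
        rw [show cball G y 0 = {y} from rfl, card_singleton, one_mul]
        exact Nat.pow_le_pow_right (Nat.succ_pos _) (Nat.le_succ _)
    have h1 : (#P : ℝ) * h vM ≤ S * C * h vm := by
      calc (#P : ℝ) * h vM = ∑ y ∈ P, h y := by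
            rw [← nsmul_eq_mul, ← sum_const]
            refine sum_congr rfl fun y hy => ?_
            obtain ⟨z, _, rfl⟩ := Finset.mem_image.1 hy
            exact (hw z).symm
        _ ≤ ∑ y ∈ cball G vm (n + 1), h y :=
            sum_le_sum_of_subset_of_nonneg hPsub fun y _ _ => zero_le_one.trans (hone y)
        _ = (Lam + 1) * h vm := hball vm
        _ ≤ _ := mul_le_mul_of_nonneg_right hLup (zero_le_one.trans (hone vm))
    have h2 : S ≤ (C:ℝ) ^ 3 * #P := by
      have : (#(cball G vm (n + 1)) : ℝ) ≤ C * (C * #P) := by exact_mod_cast hPcard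
      calc S ≤ _ := hlow vm
        _ ≤ (C * (C * #P) : ℝ) * C := mul_le_mul_of_nonneg_right this (by positivity)
        _ = _ := by ring
    intro x
    refine (hleM x).trans ?_
    have hm1 : 0 < h vm := lt_of_lt_of_le one_pos (hone vm)
    have h3 : S * h vM ≤ S * ((C:ℝ) ^ 4 * h vm) := by
      calc S * h vM ≤ (C:ℝ) ^ 3 * #P * h vM :=
            mul_le_mul_of_nonneg_right h2 (zero_le_one.trans (hone vM))
        _ = (C:ℝ) ^ 3 * (#P * h vM) := by ring
        _ ≤ (C:ℝ) ^ 3 * (S * C * h vm) := mul_le_mul_of_nonneg_left h1 (by positivity)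
        _ = _ := by ring
    refine (le_of_mul_le_mul_left h3 hS0).trans ?_
    rw [hMb]
    nlinarith [mul_pos (pow_pos (lt_of_lt_of_le one_pos hCR) 4) hm1]
  -- normalise to `1 ≤ k ≤ Mb`
  have hm1 : 0 < h vm := lt_of_lt_of_le one_pos (hone vm)
  set k : V → ℝ := fun x => h x / h vm with hk
  have hk1 : ∀ x, 1 ≤ k x := fun x => (one_le_div hm1).2 (hgem x)
  have hkM : ∀ x, k x ≤ Mb := fun x => (div_le_iff₀ hm1).2 (hratio x)
  have hkeig : ∀ x, ∑ y ∈ H.neighborFinset x, k y = Lam * k x := fun x => by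
    simp only [hk]; rw [← sum_div, heig, mul_div]
  have hN : AdjNorm H (Real.sqrt (1 - c ^ 2) * Lam) := by
    refine adjNorm_of_iso (fun x => lt_of_lt_of_le one_pos (hk1 x)) hLam hc0 hc1 hkeig fun A => ?_
    have hA : ∑ x ∈ A, Lam * k x ^ 2 ≤ S * C * Mb ^ 2 * #A := by
      calc ∑ x ∈ A, Lam * k x ^ 2 ≤ ∑ _x ∈ A, S * C * Mb ^ 2 :=
            sum_le_sum fun x _ => mul_le_mul (by linarith)
              (pow_le_pow_left₀ (zero_le_one.trans (hk1 x)) (hkM x) 2)
              (sq_nonneg _) (by positivity)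
        _ = _ := by rw [sum_const, nsmul_eq_mul]; ring
    have hB := spread_boundary hconn hdeg hbd (n := n) (m := S / (C : ℝ) ^ 2) (by positivity)
      (fun u => by
        rw [div_le_iff₀ (by positivity)]
        refine (hlow u).trans ?_
        have h1 : (#(cball G u (n + 1)) : ℝ) ≤ #(cball G u n) * C := by
          exact_mod_cast hshift u n 1 (by omega)
        calc (#(cball G u (n + 1)) : ℝ) * C ≤ #(cball G u n) * C * C :=
              mul_le_mul_of_nonneg_right h1 (by positivity)
          _ = _ := by ring) A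
    have hrhs : ∑ x ∈ A, (#(cball G x (n + 1) \ A) : ℝ)
        ≤ ∑ x ∈ A, ∑ y ∈ H.neighborFinset x \ A, k x * k y := by
      refine sum_le_sum fun x hx => ?_
      have hset : H.neighborFinset x \ A = cball G x (n + 1) \ A := by
        rw [hnb]; ext y
        simp only [Finset.mem_sdiff, Finset.mem_erase]
        exact ⟨fun h => ⟨h.1.2, h.2⟩, fun h => ⟨⟨fun e => h.2 (e ▸ hx), h.1⟩, h.2⟩⟩
      rw [hset, ← nsmul_one, ← sum_const]
      exact sum_le_sum fun y _ => one_le_mul_of_one_le_of_one_le (hk1 x) (hk1 y)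
    have hOut : 0 ≤ ∑ x ∈ A, (#(cball G x (n + 1) \ A) : ℝ) :=
      sum_nonneg fun x _ => Nat.cast_nonneg _
    calc c * ∑ x ∈ A, Lam * k x ^ 2
        ≤ κ / (2 * (D + 1) * C ^ 3 * Mb ^ 2) * (S * C * Mb ^ 2 * #A) :=
          mul_le_mul (min_le_left _ _) hA (sum_nonneg fun x _ => by positivity) (by positivity)
      _ = κ * #A * (S / (C:ℝ) ^ 2) / (2 * (D + 1)) := by field_simp
      _ ≤ ∑ x ∈ A, (#(cball G x (n + 1) \ A) : ℝ) := by
          rw [div_le_iff₀ (by positivity)]
          refine hB.trans ?_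
          nlinarith
      _ ≤ _ := hrhs
  refine pc_lt_pu_of_gap hHconn hHq (h := k) (M := Mb) (Lam := Lam)
    (D := #(cball G o (n + 1)) * C) hη0 (min_le_right _ _) (fun x => ?_) hk1 hkM
    (fun x => (hkeig x).ge) ?_ ?_ ?_
  · rw [hnb]
    exact (card_erase_le).trans (hcomp x o (n + 1))
  · refine le_trans ?_ hLlow
    rw [le_div_iff₀ (by positivity)]
    nlinarith [hbig.2]
  · refine hN.mono (pow_le_pow_left₀ (by positivity) ?_ 2)
    exact mul_le_mul_of_nonneg_right (by linarith [min_le_left (1 - s) (1 / 2 : ℝ)]) hLam.le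
  · push_cast
    rw [← hS]
    have h1 := (div_le_iff₀ (pow_pos hη0 3)).1 hbig.1
    have h2 : S ^ 2 ≤ (2 * C) ^ 2 * Lam ^ 2 := by
      rw [← mul_pow]
      refine pow_le_pow_left₀ hS0.le ?_ 2
      have := (div_le_iff₀ (show (0:ℝ) < 2 * C by positivity)).1 hLlow
      linarith
    have h3 : 50 * Mb * (S * C) * (4 * (C:ℝ) ^ 2) ≤ η ^ 3 * Lam ^ 2 * (4 * (C:ℝ) ^ 2) := by
      calc 50 * Mb * (S * C) * (4 * (C:ℝ) ^ 2) = 200 * Mb * C ^ 3 * S := by ring
        _ ≤ S * η ^ 3 * S := mul_le_mul_of_nonneg_right h1 hS0.le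
        _ = η ^ 3 * S ^ 2 := by ring
        _ ≤ η ^ 3 * ((2 * C) ^ 2 * Lam ^ 2) := mul_le_mul_of_nonneg_left h2 (by positivity)
        _ = _ := by ring
    exact le_of_mul_le_mul_right h3 (by positivity)

end Vale.Agent.P165
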